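import Mathlib
import Vale.Agent.P260.H493.Defs

/-!
# P260 climb, modules M12, M13: basic lemmas
-/

namespace Vale.Agent.P260.H119

open Vale.Agent.P260.H493

section deg

variable {Γ : Type} [Group Γ] (ψ : Γ →* Multiplicative ℤ)

theorem deg_mul (g h : Γ) : deg ψ (g * h) = deg ψ g + deg ψ h := by
  rw [deg, map_mul]
  rfl

theorem deg_one : deg ψ 1 = 0 := by
  rw [deg, map_one]
  rfl

theorem deg_inv (g : Γ) : deg ψ g⁻¹ = -deg ψ g := by
  rw [deg, map_inv]
  rfl

theorem deg_neg (g : Γ) : deg ψ⁻¹ g = -deg ψ g := rfl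

theorem deg_eq_zero {g : Γ} (h : ψ g = 1) : deg ψ g = 0 := by
  rw [deg, h]
  rfl

end deg

section LeGe

variable {k Γ : Type} [Field k] [Group Γ] {ψ : Γ →* Multiplicative ℤ} {ι κ : Type}

theorem ge_inv_iff {c : ℤ} {v : ι → MonoidAlgebra k Γ} : Ge ψ⁻¹ c v ↔ Le ψ (-c) v := by
  constructor
  · intro h i g hg
    have := h i g hg
    rw [deg_neg] at this
    linarith
  · intro h i g hg
    have := h i g hg
    rw [deg_neg]
    linarith

theorem shift_le {C : ℤ} {T : (ι → MonoidAlgebra k Γ) →ₗ[MonoidAlgebra k Γ] (κ → MonoidAlgebra k Γ)}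
    (hT : Shift ψ⁻¹ C T) {c : ℤ} {v : ι → MonoidAlgebra k Γ} (hv : Le ψ c v) :
    Le ψ (c - C) (T v) := by
  have h1 : Ge ψ⁻¹ (-c) v := ge_inv_iff.2 (by rwa [neg_neg])
  have h2 := ge_inv_iff.1 (hT _ _ h1)
  rwa [show -(-c + C) = c - C by ring] at h2

theorem le_mono {c c' : ℤ} {v : ι → MonoidAlgebra k Γ} (h : Le ψ c v) (hc : c ≤ c') :
    Le ψ c' v := fun i g hg => (h i g hg).trans hc

theorem ge_mono {c c' : ℤ} {v : ι → MonoidAlgebra k Γ} (h : Ge ψ c v) (hc : c' ≤ c) :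
    Ge ψ c' v := fun i g hg => hc.trans (h i g hg)

theorem exists_le [Finite ι] (ψ : Γ →* Multiplicative ℤ) (v : ι → MonoidAlgebra k Γ) :
    ∃ c, Le ψ c v := by
  classical
  have := Fintype.ofFinite ι
  have h : ∀ i, ∃ c : ℤ, ∀ g ∈ (v i).coeff.support, deg ψ g ≤ c := by
    intro i
    obtain ⟨c, hc⟩ := ((v i).coeff.support.image (deg ψ)).bddAbove
    exact ⟨c, fun g hg => hc (Finset.mem_coe.2 (Finset.mem_image_of_mem _ hg))⟩
  choose c hc using h
  obtain ⟨b, hb⟩ := (Finset.univ.image c).bddAbove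
  refine ⟨b, fun i g hg => (hc i g (Finsupp.mem_support_iff.2 hg)).trans ?_⟩
  exact hb (Finset.mem_coe.2 (Finset.mem_image_of_mem _ (Finset.mem_univ i)))

theorem exists_ge [Finite ι] (ψ : Γ →* Multiplicative ℤ) (v : ι → MonoidAlgebra k Γ) :
    ∃ c, Ge ψ c v := by
  obtain ⟨c, hc⟩ := exists_le ψ⁻¹ v
  refine ⟨-c, fun i g hg => ?_⟩
  have := hc i g hg
  rw [deg_neg] at this
  linarith

/-- every `A`-linear map raises the maximal degree by a bounded amount -/
theorem exists_up [Finite ι] [Finite κ] (ψ : Γ →* Multiplicative ℤ)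
    (T : (ι → MonoidAlgebra k Γ) →ₗ[MonoidAlgebra k Γ] (κ → MonoidAlgebra k Γ)) :
    ∃ C : ℤ, ∀ c v, Le ψ c v → Le ψ (c + C) (T v) := by
  classical
  have := Fintype.ofFinite ι
  have h : ∀ i, ∃ c, Le ψ c (T (Pi.single i 1)) := fun i => exists_le ψ _
  choose c hc using h
  obtain ⟨C, hC⟩ := (Finset.univ.image c).bddAbove
  have hC' : ∀ i, Le ψ C (T (Pi.single i 1)) := fun i =>
    le_mono (hc i) (hC (Finset.mem_coe.2 (Finset.mem_image_of_mem _ (Finset.mem_univ i))))
  refine ⟨C, fun b v hv j g hg => ?_⟩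
  have h1 : T v = ∑ i, v i • T (Pi.single i 1) := by
    conv_lhs => rw [pi_eq_sum_univ' v]
    rw [map_sum]
    exact Finset.sum_congr rfl fun i _ => map_smul _ _ _
  rw [h1, Finset.sum_apply, MonoidAlgebra.coeff_sum, Finset.sum_apply'] at hg
  obtain ⟨i, -, hi⟩ := Finset.exists_ne_zero_of_sum_ne_zero hg
  rw [Pi.smul_apply, smul_eq_mul] at hi
  have h2 := MonoidAlgebra.support_coeff_mul_subset _ _ (Finsupp.mem_support_iff.2 hi)
  obtain ⟨x, hx, y, hy, rfl⟩ := Finset.mem_mul.1 h2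
  rw [deg_mul]
  exact add_le_add (hv i x (Finsupp.mem_support_iff.1 hx)) (hC' i j y (Finsupp.mem_support_iff.1 hy))

/-- every `A`-linear map lowers the minimal degree by a bounded amount -/
theorem exists_down [Finite ι] [Finite κ] (ψ : Γ →* Multiplicative ℤ)
    (T : (ι → MonoidAlgebra k Γ) →ₗ[MonoidAlgebra k Γ] (κ → MonoidAlgebra k Γ)) :
    ∃ C : ℤ, ∀ c v, Ge ψ c v → Ge ψ (c - C) (T v) := by
  obtain ⟨C, hC⟩ := exists_up ψ⁻¹ T
  refine ⟨C, fun c v hv i g hg => ?_⟩
  have h1 : Le ψ⁻¹ (-c) v := fun i g hg => by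
    rw [deg_neg]
    exact neg_le_neg (hv i g hg)
  have h2 := hC _ _ h1 i g hg
  rw [deg_neg] at h2
  linarith

end LeGe

/-! ### locally finite sums of linear maps -/

section lsum

variable {R M N : Type*} [Ring R] [AddCommGroup M] [AddCommGroup N] [Module R M] [Module R N]

theorem range_stab {f : ℕ → N} {L L' : ℕ} (h : ∀ l ≥ L, f l = 0) (hL : L ≤ L') :
    ∑ l ∈ Finset.range L', f l = ∑ l ∈ Finset.range L, f l := by
  refine (Finset.sum_subset (Finset.range_subset_range.2 hL) fun l _ hl => h l ?_).symm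
  simpa using hl

theorem range_stab' {f : ℕ → N} {L L' : ℕ} (h : ∀ l ≥ L, f l = 0) (h' : ∀ l ≥ L', f l = 0) :
    ∑ l ∈ Finset.range L', f l = ∑ l ∈ Finset.range L, f l := by
  rcases le_total L L' with hL | hL
  · exact range_stab h hL
  · exact (range_stab h' hL).symm

/-- a pointwise finite sum of linear maps -/
noncomputable def lsum (Z : ℕ → M →ₗ[R] N) (hZ : ∀ u, ∃ L, ∀ l ≥ L, Z l u = 0) : M →ₗ[R] N where
  toFun u := ∑ l ∈ Finset.range (hZ u).choose, Z l u
  map_add' u v := by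
    have h1 := (hZ u).choose_spec
    have h2 := (hZ v).choose_spec
    set L := max (hZ u).choose (hZ v).choose
    have h3 : ∀ l ≥ L, Z l (u + v) = 0 := fun l hl => by
      rw [map_add, h1 l ((le_max_left _ _).trans hl), h2 l ((le_max_right _ _).trans hl), add_zero]
    rw [← range_stab (f := fun l => Z l u) h1 (le_max_left _ (hZ v).choose),
      ← range_stab (f := fun l => Z l v) h2 (le_max_right (hZ u).choose _),
      range_stab' (f := fun l => Z l (u + v)) h3 (hZ (u + v)).choose_spec,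
      ← Finset.sum_add_distrib]
    exact Finset.sum_congr rfl fun l _ => map_add _ _ _
  map_smul' a u := by
    have h1 := (hZ u).choose_spec
    have h3 : ∀ l ≥ (hZ u).choose, Z l (a • u) = 0 := fun l hl => by
      rw [map_smul, h1 l hl, smul_zero]
    rw [range_stab' (f := fun l => Z l (a • u)) h3 (hZ (a • u)).choose_spec, RingHom.id_apply,
      Finset.smul_sum]
    exact Finset.sum_congr rfl fun l _ => map_smul _ _ _

theorem lsum_apply {Z : ℕ → M →ₗ[R] N} {hZ : ∀ u, ∃ L, ∀ l ≥ L, Z l u = 0} {u : M} {L : ℕ}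
    (h : ∀ l ≥ L, Z l u = 0) : lsum Z hZ u = ∑ l ∈ Finset.range L, Z l u :=
  range_stab' (f := fun l => Z l u) h (hZ u).choose_spec

end lsum

end Vale.Agent.P260.H119
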