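import Mathlib
import Vale.Agent.P260.H493.Defs
import Vale.Agent.P260.H493.Spec
import Vale.Agent.P260.H119.B

/-!
# P260 climb, module M12: functionals supported in high degrees
-/

namespace Vale.Agent.P260.H119

open Vale.Agent.P260.H493

section

variable {k Γ : Type} [Field k] [Group Γ] {ψ : Γ →* Multiplicative ℤ} {ι : Type}

theorem le_pow {r : (ι → MonoidAlgebra k Γ) →ₗ[MonoidAlgebra k Γ] (ι → MonoidAlgebra k Γ)}
    (hr : Shift ψ⁻¹ 1 r) {c : ℤ} {v : ι → MonoidAlgebra k Γ} (hv : Le ψ c v) (l : ℕ) :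
    Le ψ (c - l) ((r ^ l) v) := by
  induction l with
  | zero => simpa using hv
  | succ l ih =>
    rw [pow_succ', Module.End.mul_apply]
    have := shift_le hr ih
    rwa [show c - (l : ℤ) - 1 = c - ((l + 1 : ℕ) : ℤ) by push_cast; ring] at this

/-- The key step: `z = z∘r + z∘h∘δ` for all iterates. -/
theorem sum_step {Δ : Subgroup Γ} {κ : Type} {N : Type} [AddCommGroup N]
    [Module (MonoidAlgebra k Δ) N] [Finite ι] [Finite κ]
    (r : (ι → MonoidAlgebra k Γ) →ₗ[MonoidAlgebra k Γ] (ι → MonoidAlgebra k Γ))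
    (hr : Shift ψ⁻¹ 1 r)
    (h : (κ → MonoidAlgebra k Γ) →ₗ[MonoidAlgebra k Γ] (ι → MonoidAlgebra k Γ))
    (δ : (ι → MonoidAlgebra k Γ) →ₗ[MonoidAlgebra k Γ] (κ → MonoidAlgebra k Γ))
    (z : (ι → MonoidAlgebra k Γ) →ₗ[MonoidAlgebra k Δ] N) {c : ℤ} (hz : UpF ψ c z)
    (hstep : ∀ l v, z ((r ^ l) v) = z ((r ^ (l + 1)) v) + z ((r ^ l) (h (δ v)))) :
    ∃ y : (κ → MonoidAlgebra k Γ) →ₗ[MonoidAlgebra k Δ] N,
      (∃ c, UpF ψ c y) ∧ z = y ∘ₗ resS Δ δ := by
  have hZ : ∀ v : ι → MonoidAlgebra k Γ, ∃ L : ℕ, ∀ l ≥ L, z ((r ^ l) v) = 0 := by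
    intro v
    obtain ⟨b, hb⟩ := exists_le ψ v
    refine ⟨(b - c).toNat, fun l hl => hz _ (le_mono (le_pow hr hb l) ?_)⟩
    have : b - c ≤ (l : ℤ) := (Int.self_le_toNat _).trans (by exact_mod_cast hl)
    linarith
  let Z : ℕ → (κ → MonoidAlgebra k Γ) →ₗ[MonoidAlgebra k Δ] N := fun l =>
    z ∘ₗ resS Δ ((r ^ l) ∘ₗ h)
  have hZ' : ∀ u, ∃ L : ℕ, ∀ l ≥ L, Z l u = 0 := fun u => hZ (h u)
  refine ⟨lsum Z hZ', ?_, ?_⟩
  · obtain ⟨C, hC⟩ := exists_up ψ h
    refine ⟨c - C, fun u hu => ?_⟩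
    have h1 : Le ψ c (h u) := by simpa using hC _ _ hu
    have h2 : ∀ l ≥ 0, Z l u = 0 := fun l _ =>
      hz _ (le_mono (le_pow hr h1 l) (by have : (0 : ℤ) ≤ l := Int.natCast_nonneg l; linarith))
    rw [lsum_apply h2, Finset.sum_range_zero]
  · refine LinearMap.ext fun v => ?_
    obtain ⟨L, hL⟩ := hZ v
    have h1 : ∀ l ≥ L, Z l (δ v) = 0 := by
      intro l hl
      have h2 := hstep l v
      rw [hL l hl, hL (l + 1) (by omega), zero_add] at h2
      exact h2.symm
    show z v = lsum Z hZ' (δ v)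
    rw [lsum_apply h1]
    have h3 : ∀ l, Z l (δ v) = z ((r ^ l) v) - z ((r ^ (l + 1)) v) := by
      intro l
      rw [hstep l v, add_sub_cancel_left]
      rfl
    rw [Finset.sum_congr rfl fun l _ => h3 l, Finset.sum_range_sub', hL L le_rfl, sub_zero,
      pow_zero]
    rfl

end

theorem acyc : StmtAcyc := by
  intro k Γ _ _ ψ Δ m P _ hP N _ _
  obtain ⟨h, hh, htop⟩ := hP 1
  refine ⟨?_, ?_, ?_⟩
  · rintro z hz ⟨c, hc⟩
    have h0 := hh 0 (Nat.zero_le _)
    set r := P.defect h 0 with hr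
    have h1 : ∀ v, z v = z (r v) := by
      intro v
      have h2 : r v = v - P.d 0 (h 0 v) := rfl
      have h3 : z (P.d 0 (h 0 v)) = 0 := LinearMap.congr_fun hz (h 0 v)
      rw [h2, map_sub, h3, sub_zero]
    have h2 : ∀ (l : ℕ) v, z v = z ((r ^ l) v) := by
      intro l
      induction l with
      | zero => intro v; simp
      | succ l ih =>
        intro v
        rw [pow_succ', Module.End.mul_apply, ← h1, ← ih]
    refine LinearMap.ext fun v => ?_
    obtain ⟨b, hb⟩ := exists_le ψ v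
    rw [h2 (b - c).toNat v]
    refine hc _ (le_mono (le_pow h0 hb _) ?_)
    have := Int.self_le_toNat (b - c)
    linarith
  · rintro i hi z hz ⟨c, hc⟩
    have h0 := hh (i + 1) (by omega)
    set r := P.defect h (i + 1) with hr
    have hrv : ∀ v, r v = v - h i (P.d i v) - P.d (i + 1) (h (i + 1) v) := fun v => rfl
    have hdd : ∀ x, P.d i (P.d (i + 1) x) = 0 := fun x => (P.ex i hi _).2 ⟨x, rfl⟩
    have hzd : ∀ x, z (P.d (i + 1) x) = 0 := fun x => LinearMap.congr_fun hz x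
    have hrd : ∀ (l : ℕ) x, ∃ x', (r ^ l) (P.d (i + 1) x) = P.d (i + 1) x' := by
      intro l
      induction l with
      | zero => intro x; exact ⟨x, by simp⟩
      | succ l ih =>
        intro x
        obtain ⟨x', hx'⟩ := ih x
        refine ⟨x' - h (i + 1) (P.d (i + 1) x'), ?_⟩
        rw [pow_succ', Module.End.mul_apply, hx', hrv, hdd, map_zero, sub_zero, map_sub]
    refine sum_step r h0 (h i) (P.d i) z hc fun l v => ?_
    have h1 : (r ^ (l + 1)) v = (r ^ l) v - (r ^ l) (h i (P.d i v))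
        - (r ^ l) (P.d (i + 1) (h (i + 1) v)) := by
      rw [pow_succ, Module.End.mul_apply, hrv, map_sub, map_sub]
    obtain ⟨x', hx'⟩ := hrd l (h (i + 1) v)
    rw [h1, hx', map_sub, map_sub, hzd, sub_zero, sub_add_cancel]
  · rintro z hz ⟨c, hc⟩
    set r := P.topDefect h with hr
    have hrv : ∀ v, r v = P.π v - P.π (h m (P.d m v)) := fun v => rfl
    have hzπ : ∀ v, z (P.π v) = z v := fun v => LinearMap.congr_fun hz v
    have hzl : ∀ (l : ℕ) v, z ((r ^ l) (P.π v)) = z ((r ^ l) v) := by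
      intro l
      cases l with
      | zero => intro v; simpa using hzπ v
      | succ l =>
        intro v
        rw [pow_succ, Module.End.mul_apply, Module.End.mul_apply]
        congr 2
        rw [hrv, hrv, P.pi_pi, P.d_pi]
    refine sum_step r htop (h m) (P.d m) z hc fun l v => ?_
    have h1 : (r ^ (l + 1)) v = (r ^ l) (P.π v) - (r ^ l) (P.π (h m (P.d m v))) := by
      rw [pow_succ, Module.End.mul_apply, hrv, map_sub]
    rw [h1, map_sub, hzl, hzl, sub_add_cancel]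

end Vale.Agent.P260.H119
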