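import Mathlib
import Vale.Agent.P260.H493.Defs
import Vale.Agent.P260.H119.B

/-!
# P260 climb, module M13, part 1: cutting functionals; functionals bounded in both directions
-/

namespace Vale.Agent.P260.H119

open Vale.Agent.P260.H493

section hi

variable {k Γ : Type} [Field k] [Group Γ] (ψ : Γ →* Multiplicative ℤ)

/-- the part of positive degree -/
noncomputable def hiA : MonoidAlgebra k Γ →+ MonoidAlgebra k Γ where
  toFun x := MonoidAlgebra.ofCoeff (x.coeff.filter fun g => 0 < deg ψ g)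
  map_zero' := by rw [MonoidAlgebra.coeff_zero, Finsupp.filter_zero, MonoidAlgebra.ofCoeff_zero]
  map_add' x y := by
    rw [MonoidAlgebra.coeff_add, Finsupp.filter_add, MonoidAlgebra.ofCoeff_add]

theorem hiA_coeff (x : MonoidAlgebra k Γ) (g : Γ) :
    (hiA ψ x).coeff g = if 0 < deg ψ g then x.coeff g else 0 := by
  show (x.coeff.filter fun g => 0 < deg ψ g) g = _
  rw [Finsupp.filter_apply]

variable {ψ} {Δ : Subgroup Γ}

theorem sub_single (δ : Δ) (r : k) :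
    MonoidAlgebra.mapDomainRingHom k Δ.subtype (MonoidAlgebra.single δ r) =
      MonoidAlgebra.single (δ : Γ) r := by
  simp [MonoidAlgebra.mapDomainRingHom]

theorem hiA_mul (hΔ : ∀ g ∈ Δ, ψ g = 1) (b : MonoidAlgebra k Δ) (x : MonoidAlgebra k Γ) :
    hiA ψ (MonoidAlgebra.mapDomainRingHom k Δ.subtype b * x) =
      MonoidAlgebra.mapDomainRingHom k Δ.subtype b * hiA ψ x := by
  induction b using MonoidAlgebra.induction_linear with
  | zero => simp
  | add b c hb hc => rw [map_add, add_mul, add_mul, map_add, hb, hc]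
  | single δ r =>
    rw [sub_single]
    refine MonoidAlgebra.ext (Finsupp.ext fun g => ?_)
    rw [hiA_coeff, MonoidAlgebra.coeff_single_mul_apply, MonoidAlgebra.coeff_single_mul_apply,
      hiA_coeff]
    have h1 : deg ψ ((δ : Γ)⁻¹ * g) = deg ψ g := by
      rw [deg_mul, deg_inv, deg_eq_zero ψ (hΔ _ δ.2), neg_zero, zero_add]
    rw [h1]
    split_ifs <;> simp

/-- the part of positive degree of a vector -/
noncomputable def hi (hΔ : ∀ g ∈ Δ, ψ g = 1) {ι : Type} :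
    (ι → MonoidAlgebra k Γ) →ₗ[MonoidAlgebra k Δ] (ι → MonoidAlgebra k Γ) where
  toFun v i := hiA ψ (v i)
  map_add' _ _ := funext fun _ => map_add _ _ _
  map_smul' b v := funext fun i => hiA_mul hΔ b (v i)

theorem hi_of_le (hΔ : ∀ g ∈ Δ, ψ g = 1) {ι : Type} {v : ι → MonoidAlgebra k Γ}
    (hv : Le ψ 0 v) : hi hΔ v = 0 := by
  funext i
  refine MonoidAlgebra.ext (Finsupp.ext fun g => ?_)
  show (hiA ψ (v i)).coeff g = 0
  rw [hiA_coeff]
  split_ifs with h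
  · by_contra h2
    exact absurd (hv i g h2) (not_le.2 h)
  · rfl

theorem hi_of_ge (hΔ : ∀ g ∈ Δ, ψ g = 1) {ι : Type} {v : ι → MonoidAlgebra k Γ}
    (hv : Ge ψ 1 v) : hi hΔ v = v := by
  funext i
  refine MonoidAlgebra.ext (Finsupp.ext fun g => ?_)
  show (hiA ψ (v i)).coeff g = (v i).coeff g
  rw [hiA_coeff]
  split_ifs with h
  · rfl
  · by_contra h2
    have := hv i g (Ne.symm h2)
    omega

/-- every functional is the sum of one supported in positive and one in nonpositive degrees -/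
theorem exists_cut (hΔ : ∀ g ∈ Δ, ψ g = 1) {ι N : Type} [AddCommGroup N]
    [Module (MonoidAlgebra k Δ) N] (z : (ι → MonoidAlgebra k Γ) →ₗ[MonoidAlgebra k Δ] N) :
    ∃ zp zm : (ι → MonoidAlgebra k Γ) →ₗ[MonoidAlgebra k Δ] N, z = zp + zm ∧
      UpF ψ 0 zp ∧ DownF ψ 1 zm := by
  refine ⟨z ∘ₗ hi hΔ, z - z ∘ₗ hi hΔ, by rw [add_sub_cancel], ?_, ?_⟩
  · intro v hv
    rw [LinearMap.comp_apply, hi_of_le hΔ hv, map_zero]
  · intro v hv
    rw [LinearMap.sub_apply, LinearMap.comp_apply, hi_of_ge hΔ hv, sub_self]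

end hi

section updn

variable {k Γ : Type} [Field k] [Group Γ] {ψ : Γ →* Multiplicative ℤ} {Δ : Subgroup Γ}
  {ι κ N : Type} [AddCommGroup N] [Module (MonoidAlgebra k Δ) N]

theorem upF_mono {c c' : ℤ} {z : (ι → MonoidAlgebra k Γ) →ₗ[MonoidAlgebra k Δ] N}
    (h : UpF ψ c z) (hc : c' ≤ c) : UpF ψ c' z := fun v hv => h v (le_mono hv hc)

theorem downF_mono {c c' : ℤ} {z : (ι → MonoidAlgebra k Γ) →ₗ[MonoidAlgebra k Δ] N}
    (h : DownF ψ c z) (hc : c ≤ c') : DownF ψ c' z := fun v hv => h v (ge_mono hv hc)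

/-- `z` is supported in high degrees -/
def EUp (ψ : Γ →* Multiplicative ℤ) (z : (ι → MonoidAlgebra k Γ) →ₗ[MonoidAlgebra k Δ] N) : Prop :=
  ∃ c, UpF ψ c z

/-- `z` is supported in low degrees -/
def EDn (ψ : Γ →* Multiplicative ℤ) (z : (ι → MonoidAlgebra k Γ) →ₗ[MonoidAlgebra k Δ] N) : Prop :=
  ∃ c, DownF ψ c z

theorem EUp.add {z w : (ι → MonoidAlgebra k Γ) →ₗ[MonoidAlgebra k Δ] N} (hz : EUp ψ z)
    (hw : EUp ψ w) : EUp ψ (z + w) := by
  obtain ⟨a, ha⟩ := hz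
  obtain ⟨b, hb⟩ := hw
  refine ⟨min a b, fun v hv => ?_⟩
  rw [LinearMap.add_apply, upF_mono ha (min_le_left _ _) v hv,
    upF_mono hb (min_le_right _ _) v hv, add_zero]

theorem EUp.neg {z : (ι → MonoidAlgebra k Γ) →ₗ[MonoidAlgebra k Δ] N} (hz : EUp ψ z) :
    EUp ψ (-z) := by
  obtain ⟨a, ha⟩ := hz
  exact ⟨a, fun v hv => by rw [LinearMap.neg_apply, ha v hv, neg_zero]⟩

theorem EUp.sub {z w : (ι → MonoidAlgebra k Γ) →ₗ[MonoidAlgebra k Δ] N} (hz : EUp ψ z)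
    (hw : EUp ψ w) : EUp ψ (z - w) := by
  rw [sub_eq_add_neg]
  exact hz.add hw.neg

theorem EDn.add {z w : (ι → MonoidAlgebra k Γ) →ₗ[MonoidAlgebra k Δ] N} (hz : EDn ψ z)
    (hw : EDn ψ w) : EDn ψ (z + w) := by
  obtain ⟨a, ha⟩ := hz
  obtain ⟨b, hb⟩ := hw
  refine ⟨max a b, fun v hv => ?_⟩
  rw [LinearMap.add_apply, downF_mono ha (le_max_left _ _) v hv,
    downF_mono hb (le_max_right _ _) v hv, add_zero]

theorem EDn.neg {z : (ι → MonoidAlgebra k Γ) →ₗ[MonoidAlgebra k Δ] N} (hz : EDn ψ z) :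
    EDn ψ (-z) := by
  obtain ⟨a, ha⟩ := hz
  exact ⟨a, fun v hv => by rw [LinearMap.neg_apply, ha v hv, neg_zero]⟩

theorem EDn.sub {z w : (ι → MonoidAlgebra k Γ) →ₗ[MonoidAlgebra k Δ] N} (hz : EDn ψ z)
    (hw : EDn ψ w) : EDn ψ (z - w) := by
  rw [sub_eq_add_neg]
  exact hz.add hw.neg

theorem EUp.comp [Finite ι] [Finite κ] {z : (κ → MonoidAlgebra k Γ) →ₗ[MonoidAlgebra k Δ] N}
    (hz : EUp ψ z)
    (T : (ι → MonoidAlgebra k Γ) →ₗ[MonoidAlgebra k Γ] (κ → MonoidAlgebra k Γ)) :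
    EUp ψ (z ∘ₗ resS Δ T) := by
  obtain ⟨a, ha⟩ := hz
  obtain ⟨C, hC⟩ := exists_up ψ T
  refine ⟨a - C, fun v hv => ha _ ?_⟩
  have := hC _ _ hv
  rwa [sub_add_cancel] at this

theorem EDn.comp [Finite ι] [Finite κ] {z : (κ → MonoidAlgebra k Γ) →ₗ[MonoidAlgebra k Δ] N}
    (hz : EDn ψ z)
    (T : (ι → MonoidAlgebra k Γ) →ₗ[MonoidAlgebra k Γ] (κ → MonoidAlgebra k Γ)) :
    EDn ψ (z ∘ₗ resS Δ T) := by
  obtain ⟨a, ha⟩ := hz
  obtain ⟨C, hC⟩ := exists_down ψ T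
  refine ⟨a + C, fun v hv => ha _ ?_⟩
  have := hC _ _ hv
  rwa [add_sub_cancel_right] at this

theorem edn_iff {z : (ι → MonoidAlgebra k Γ) →ₗ[MonoidAlgebra k Δ] N} :
    EUp ψ⁻¹ z ↔ EDn ψ z := by
  constructor
  · rintro ⟨c, hc⟩
    refine ⟨-c, fun v hv => hc v fun i g hg => ?_⟩
    rw [deg_neg]
    have := hv i g hg
    linarith
  · rintro ⟨c, hc⟩
    refine ⟨-c, fun v hv => hc v fun i g hg => ?_⟩
    have := hv i g hg
    rw [deg_neg] at this
    linarith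

end updn

/-! ### the projection to the group algebra of the subgroup -/

section pr

variable {k Γ : Type} [Field k] [Group Γ] {ψ : Γ →* Multiplicative ℤ} (Δ : Subgroup Γ)
  {ι κ : Type}

theorem pr_aux : Set.InjOn (Subtype.val : Δ → Γ) (Subtype.val ⁻¹' Set.univ) :=
  Subtype.val_injective.injOn

/-- the part of an element of the group algebra supported in the subgroup -/
noncomputable def prA : MonoidAlgebra k Γ →ₗ[MonoidAlgebra k Δ] MonoidAlgebra k Δ where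
  toFun x := MonoidAlgebra.ofCoeff (x.coeff.comapDomain Subtype.val Subtype.val_injective.injOn)
  map_add' x y := by
    refine MonoidAlgebra.ext (Finsupp.ext fun g => ?_)
    rfl
  map_smul' b x := by
    show _ = b * _
    have h0 : b • x = MonoidAlgebra.mapDomainRingHom k Δ.subtype b * x := rfl
    rw [h0]
    clear h0
    induction b using MonoidAlgebra.induction_linear with
    | zero =>
      refine MonoidAlgebra.ext (Finsupp.ext fun g => ?_)
      simp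
    | add b c hb hc =>
      rw [map_add, add_mul, add_mul, ← hb, ← hc]
      refine MonoidAlgebra.ext (Finsupp.ext fun g => ?_)
      rfl
    | single δ r =>
      rw [sub_single]
      refine MonoidAlgebra.ext (Finsupp.ext fun g => ?_)
      rw [MonoidAlgebra.coeff_single_mul_apply]
      show (MonoidAlgebra.single (δ : Γ) r * x).coeff (g : Γ) = r * x.coeff ((δ⁻¹ * g : Δ) : Γ)
      rw [MonoidAlgebra.coeff_single_mul_apply]
      rfl

theorem prA_coeff (x : MonoidAlgebra k Γ) (g : Δ) : (prA Δ x).coeff g = x.coeff (g : Γ) := rfl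

/-- the functional `v ↦ pr (φ v)` -/
noncomputable def prF (φ : (ι → MonoidAlgebra k Γ) →ₗ[MonoidAlgebra k Γ] MonoidAlgebra k Γ) :
    (ι → MonoidAlgebra k Γ) →ₗ[MonoidAlgebra k Δ] MonoidAlgebra k Δ where
  toFun v := prA Δ (φ v)
  map_add' v w := by rw [map_add, map_add]
  map_smul' b v := by
    have h1 : φ (b • v) = b • φ v := φ.map_smul (MonoidAlgebra.mapDomainRingHom k Δ.subtype b) v
    rw [h1, map_smul]
    rfl

variable {Δ}

theorem prF_apply (φ : (ι → MonoidAlgebra k Γ) →ₗ[MonoidAlgebra k Γ] MonoidAlgebra k Γ)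
    (v : ι → MonoidAlgebra k Γ) : prF Δ φ v = prA Δ (φ v) := rfl

theorem smul_vec (g : Γ) (v : ι → MonoidAlgebra k Γ)
    (φ : (ι → MonoidAlgebra k Γ) →ₗ[MonoidAlgebra k Γ] MonoidAlgebra k Γ) :
    φ (MonoidAlgebra.single g (1 : k) • v) = MonoidAlgebra.single g (1 : k) * φ v := by
  rw [map_smul, smul_eq_mul]

theorem coeff_eq_pr (φ : (ι → MonoidAlgebra k Γ) →ₗ[MonoidAlgebra k Γ] MonoidAlgebra k Γ)
    (v : ι → MonoidAlgebra k Γ) (g : Γ) :
    (φ v).coeff g = (prF Δ φ (MonoidAlgebra.single g⁻¹ (1 : k) • v)).coeff 1 := by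
  rw [prF_apply, prA_coeff, smul_vec, MonoidAlgebra.coeff_single_mul_apply, one_mul, inv_inv]
  show (φ v).coeff g = (φ v).coeff (g * 1)
  rw [mul_one]

theorem prF_inj {φ χ : (ι → MonoidAlgebra k Γ) →ₗ[MonoidAlgebra k Γ] MonoidAlgebra k Γ}
    (h : prF Δ φ = prF Δ χ) : φ = χ := by
  refine LinearMap.ext fun v => MonoidAlgebra.ext (Finsupp.ext fun g => ?_)
  rw [coeff_eq_pr (Δ := Δ), coeff_eq_pr (Δ := Δ), h]

theorem prF_comp (φ : (κ → MonoidAlgebra k Γ) →ₗ[MonoidAlgebra k Γ] MonoidAlgebra k Γ)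
    (T : (ι → MonoidAlgebra k Γ) →ₗ[MonoidAlgebra k Γ] (κ → MonoidAlgebra k Γ)) :
    prF Δ (φ ∘ₗ T) = prF Δ φ ∘ₗ resS Δ T := rfl

end pr

end Vale.Agent.P260.H119
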