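import Mathlib
import Vale.Agent.P260.Defs
import Vale.Agent.P260.H493.Defs
import Vale.Agent.P260.H493.Spec
import Vale.Agent.P260.H802.VSpec

/-!
# P260 climb, V7: torsion-free amenable Poincare duality groups of dimension two over `ℚ` are
virtually solvable (glue)
-/

namespace Vale.Agent.P260.H119

open Vale.Agent.P260.H493 Vale.Agent.P260.H802

theorem surj_inv {Γ : Type} [Group Γ] {ψ : Γ →* Multiplicative ℤ} (h : Function.Surjective ψ) :
    Function.Surjective ψ⁻¹ := by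
  intro x
  obtain ⟨g, hg⟩ := h x⁻¹
  exact ⟨g, by show (ψ g)⁻¹ = x; rw [hg, inv_inv]⟩

theorem exists_pos {Γ : Type} [Group Γ] {ψ : Γ →* Multiplicative ℤ} (h : Function.Surjective ψ) :
    ∃ g, 0 < deg ψ g := by
  obtain ⟨g, hg⟩ := h (Multiplicative.ofAdd 1)
  exact ⟨g, by rw [deg, hg, toAdd_ofAdd]; exact one_pos⟩

/-- In a duality group of dimension two every character can be pushed. -/
theorem push_two (hLow : StmtLowA) (hPri : StmtPrimal) (hDual : StmtDual) (hASM : StmtASM)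
    {k Γ : Type} [Field k] [Group Γ] (hΓ : Folner Γ) (P : PDG k Γ 1)
    {ψ : Γ →* Multiplicative ℤ} (hψ : Function.Surjective ψ) : P.Push ψ := by
  obtain ⟨R, hR⟩ := hPri k Γ 0 P
  obtain ⟨R', hR'⟩ := hDual k Γ 0 P
  have h1 : P.Low ψ 1 := (hR ψ).1 (hLow k Γ ψ R (exists_pos hψ))
  have h2 : P.High ψ 1 := by
    have := (hR' ψ⁻¹).1 (hLow k Γ ψ⁻¹ R' (exists_pos (surj_inv hψ)))
    rwa [inv_inv] at this
  exact hASM k Γ 1 P ψ 1 le_rfl le_rfl hΓ hψ h1 h2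

theorem pd2 (hBass : StmtBass) (hTr : StmtTr) (hChar : StmtChar) (hFG0 : StmtFG0)
    (hEnds : H802.StmtEnds) (hExt : H802.StmtExt) (hFP2 : StmtFP2) (hLow : StmtLowA)
    (hPri : StmtPrimal) (hDual : StmtDual) (hASM : StmtASM) (hFib : StmtFiber) : StmtPD2 := by
  intro Γ _ hΓ htf P
  have hfg : Group.FG Γ := by
    obtain ⟨S, N, hS, -⟩ := hFP2 Γ 0 P
    exact ⟨⟨S, hS.gen⟩⟩
  obtain ⟨ψ, hψ⟩ := hChar Γ P hfg (by
    rw [hBass Γ hΓ htf (P.r 2) P.π P.pi_pi]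
    exact hTr Γ hΓ htf P)
  obtain ⟨Q⟩ := hFib ℚ Γ ψ 0 P hψ (push_two hLow hPri hDual hASM hΓ P hψ)
    (push_two hLow hPri hDual hASM hΓ P (surj_inv hψ))
  have htf' : ∀ g : ψ.ker, g ≠ 1 → ¬ IsOfFinOrder g := by
    intro g hg h
    refine htf (g : Γ) (fun h1 => hg (Subtype.ext h1)) ?_
    exact ψ.ker.subtype.isOfFinOrder h
  have hN : Group.FG ψ.ker := hFG0 ψ.ker Q
  exact hExt Γ (Multiplicative ℤ) ψ inferInstance hN (hEnds ψ.ker Q hN htf')

end Vale.Agent.P260.H119
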