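import Mathlib
import Vale.Agent.P260.H493.Defs
import Vale.Agent.P260.H119.Cut

/-!
# P260 climb, module M13, part 2: functionals bounded in both directions come from `A`-linear maps
-/

namespace Vale.Agent.P260.H119

open Vale.Agent.P260.H493

variable {k Γ : Type} [Field k] [Group Γ] {ψ : Γ →* Multiplicative ℤ} {ι : Type}

theorem le_smul {c : ℤ} {v : ι → MonoidAlgebra k Γ} (hv : Le ψ c v) (g : Γ) :
    Le ψ (c + deg ψ g) (MonoidAlgebra.single g (1 : k) • v) := by
  intro i x hx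
  rw [Pi.smul_apply, smul_eq_mul, MonoidAlgebra.coeff_single_mul_apply, one_mul] at hx
  have := hv i _ hx
  rw [deg_mul, deg_inv] at this
  linarith

theorem ge_smul {c : ℤ} {v : ι → MonoidAlgebra k Γ} (hv : Ge ψ c v) (g : Γ) :
    Ge ψ (c + deg ψ g) (MonoidAlgebra.single g (1 : k) • v) := by
  intro i x hx
  rw [Pi.smul_apply, smul_eq_mul, MonoidAlgebra.coeff_single_mul_apply, one_mul] at hx
  have := hv i _ hx
  rw [deg_mul, deg_inv] at this
  linarith

theorem sub_smul_vec {Δ : Subgroup Γ} (δ : Δ) (r : k) (v : ι → MonoidAlgebra k Γ) :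
    (MonoidAlgebra.single δ r : MonoidAlgebra k Δ) • v =
      MonoidAlgebra.single (δ : Γ) r • v := by
  funext i
  show MonoidAlgebra.mapDomainRingHom k Δ.subtype (MonoidAlgebra.single δ r) * v i =
    MonoidAlgebra.single (δ : Γ) r * v i
  rw [sub_single]

variable {Δ : Subgroup Γ}

/-- the value at the group element `g` of the map induced by the functional `z` -/
noncomputable def fz (z : (ι → MonoidAlgebra k Γ) →ₗ[MonoidAlgebra k Δ] MonoidAlgebra k Δ)
    (v : ι → MonoidAlgebra k Γ) (g : Γ) : k :=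
  (z (MonoidAlgebra.single g⁻¹ (1 : k) • v)).coeff 1

theorem z_single (z : (ι → MonoidAlgebra k Γ) →ₗ[MonoidAlgebra k Δ] MonoidAlgebra k Δ)
    (δ : Δ) (v : ι → MonoidAlgebra k Γ) (x : Δ) :
    (z (MonoidAlgebra.single (δ : Γ) (1 : k) • v)).coeff x = (z v).coeff (δ⁻¹ * x) := by
  rw [← sub_smul_vec, map_smul, smul_eq_mul, MonoidAlgebra.coeff_single_mul_apply, one_mul]

theorem fz_finite [Finite ι] (hψ : Function.Surjective ψ)
    (z : (ι → MonoidAlgebra k Γ) →ₗ[MonoidAlgebra k ψ.ker] MonoidAlgebra k ψ.ker)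
    (hu : EUp ψ z) (hd : EDn ψ z) (v : ι → MonoidAlgebra k Γ) :
    (Function.support (fz z v)).Finite := by
  classical
  obtain ⟨a, ha⟩ := hu
  obtain ⟨b, hb⟩ := hd
  obtain ⟨b₁, hb₁⟩ := exists_le ψ v
  obtain ⟨a₁, ha₁⟩ := exists_ge ψ v
  obtain ⟨t, ht⟩ := hψ (Multiplicative.ofAdd 1)
  have ht' : ∀ j : ℤ, deg ψ (t ^ j) = j := by
    intro j
    rw [deg, map_zpow, ht, ← ofAdd_zsmul, toAdd_ofAdd, smul_eq_mul, mul_one]
  let w : ℤ → MonoidAlgebra k ψ.ker := fun j => z (MonoidAlgebra.single (t ^ (-j)) (1 : k) • v)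
  let B : Finset Γ := (Finset.Icc (a₁ - b) (b₁ - a)).biUnion fun j =>
    (w j).coeff.support.image fun δ : ψ.ker => t ^ j * (δ : Γ)
  refine (Finset.finite_toSet B).subset fun g hg => ?_
  have hg : (z (MonoidAlgebra.single g⁻¹ (1 : k) • v)).coeff 1 ≠ 0 := hg
  have h1 : deg ψ g ∈ Finset.Icc (a₁ - b) (b₁ - a) := by
    rw [Finset.mem_Icc]
    constructor
    · by_contra h
      refine hg ?_
      rw [hb _ (ge_mono (ge_smul ha₁ g⁻¹) (by rw [deg_inv]; omega))]
      rfl
    · by_contra h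
      refine hg ?_
      rw [ha _ (le_mono (le_smul hb₁ g⁻¹) (by rw [deg_inv]; omega))]
      rfl
  have h2 : ψ (t ^ (-deg ψ g) * g) = 1 := by
    have : deg ψ (t ^ (-deg ψ g) * g) = 0 := by rw [deg_mul, ht']; ring
    exact Multiplicative.toAdd.injective this
  let δ : ψ.ker := ⟨t ^ (-deg ψ g) * g, h2⟩
  have h3 : g = t ^ (deg ψ g) * (δ : Γ) := by
    show g = t ^ (deg ψ g) * (t ^ (-deg ψ g) * g)
    rw [zpow_neg, mul_inv_cancel_left]
  rw [Finset.mem_coe, Finset.mem_biUnion]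
  refine ⟨deg ψ g, h1, Finset.mem_image.2 ⟨δ, ?_, h3.symm⟩⟩
  rw [Finsupp.mem_support_iff]
  have h4 : MonoidAlgebra.single g⁻¹ (1 : k) • v =
      MonoidAlgebra.single ((δ⁻¹ : ψ.ker) : Γ) (1 : k) •
        (MonoidAlgebra.single (t ^ (-deg ψ g)) (1 : k) • v) := by
    rw [smul_smul, MonoidAlgebra.single_mul_single, one_mul]
    congr 2
    rw [InvMemClass.coe_inv]
    show g⁻¹ = (t ^ (-deg ψ g) * g)⁻¹ * t ^ (-deg ψ g)
    rw [mul_inv_rev, inv_mul_cancel_right]
  rw [h4, z_single, inv_inv, mul_one] at hg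
  exact hg

theorem exists_lift [Finite ι] (hψ : Function.Surjective ψ)
    (z : (ι → MonoidAlgebra k Γ) →ₗ[MonoidAlgebra k ψ.ker] MonoidAlgebra k ψ.ker)
    (hu : EUp ψ z) (hd : EDn ψ z) :
    ∃ φ : (ι → MonoidAlgebra k Γ) →ₗ[MonoidAlgebra k Γ] MonoidAlgebra k Γ,
      prF ψ.ker φ = z := by
  let f : (ι → MonoidAlgebra k Γ) → MonoidAlgebra k Γ := fun v =>
    MonoidAlgebra.ofCoeff (Finsupp.ofSupportFinite (fz z v) (fz_finite hψ z hu hd v))
  have hf : ∀ v g, (f v).coeff g = (z (MonoidAlgebra.single g⁻¹ (1 : k) • v)).coeff 1 :=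
    fun v g => rfl
  have hadd : ∀ v w, f (v + w) = f v + f w := by
    intro v w
    refine MonoidAlgebra.ext (Finsupp.ext fun g => ?_)
    rw [MonoidAlgebra.coeff_add, Finsupp.add_apply, hf, hf, hf, smul_add, map_add,
      MonoidAlgebra.coeff_add, Finsupp.add_apply]
  let φ : (ι → MonoidAlgebra k Γ) →ₗ[MonoidAlgebra k Γ] MonoidAlgebra k Γ :=
    { toFun := f
      map_add' := hadd
      map_smul' := by
        intro a v
        rw [RingHom.id_apply, smul_eq_mul]
        induction a using MonoidAlgebra.induction_linear with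
        | zero =>
          rw [zero_smul, zero_mul]
          refine MonoidAlgebra.ext (Finsupp.ext fun g => ?_)
          rw [hf, smul_zero, map_zero]
          rfl
        | add b c hb hc => rw [add_smul, hadd, hb, hc, add_mul]
        | single x r =>
          refine MonoidAlgebra.ext (Finsupp.ext fun g => ?_)
          rw [MonoidAlgebra.coeff_single_mul_apply, hf, hf, smul_smul,
            MonoidAlgebra.single_mul_single, one_mul]
          have h1 : MonoidAlgebra.single (g⁻¹ * x) r • v =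
              (MonoidAlgebra.single (1 : ψ.ker) r : MonoidAlgebra k ψ.ker) •
                (MonoidAlgebra.single (x⁻¹ * g)⁻¹ (1 : k) • v) := by
            rw [sub_smul_vec, smul_smul, MonoidAlgebra.single_mul_single, mul_one]
            congr 2
            rw [OneMemClass.coe_one, one_mul, mul_inv_rev, inv_inv]
          rw [h1, map_smul, smul_eq_mul, MonoidAlgebra.coeff_single_mul_apply, inv_one, one_mul] }
  refine ⟨φ, LinearMap.ext fun v => MonoidAlgebra.ext (Finsupp.ext fun δ => ?_)⟩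
  rw [prF_apply, prA_coeff]
  show (f v).coeff (δ : Γ) = _
  rw [hf]
  have h1 := z_single z δ⁻¹ v 1
  rw [InvMemClass.coe_inv, inv_inv, mul_one] at h1
  exact h1

theorem prF_eup [Finite ι]
    (φ : (ι → MonoidAlgebra k Γ) →ₗ[MonoidAlgebra k Γ] MonoidAlgebra k Γ)
    (hΔ : ∀ g ∈ Δ, ψ g = 1) : EUp ψ (prF Δ φ) := by
  let T : (ι → MonoidAlgebra k Γ) →ₗ[MonoidAlgebra k Γ] (Unit → MonoidAlgebra k Γ) :=
    LinearMap.pi fun _ => φ
  obtain ⟨C, hC⟩ := exists_up ψ T
  refine ⟨-C - 1, fun v hv => MonoidAlgebra.ext (Finsupp.ext fun δ => ?_)⟩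
  rw [prF_apply, prA_coeff]
  by_contra h
  have h1 := hC _ _ hv () (δ : Γ) h
  rw [deg_eq_zero ψ (hΔ _ δ.2)] at h1
  omega

theorem prF_edn [Finite ι]
    (φ : (ι → MonoidAlgebra k Γ) →ₗ[MonoidAlgebra k Γ] MonoidAlgebra k Γ)
    (hΔ : ∀ g ∈ Δ, ψ g = 1) : EDn ψ (prF Δ φ) :=
  edn_iff.1 (prF_eup φ fun g hg => by rw [MonoidHom.inv_apply, hΔ g hg, inv_one])

end Vale.Agent.P260.H119
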