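import Mathlib
import Vale.Agent.P260.H493.Defs
import Vale.Agent.P260.H493.Spec
import Vale.Agent.P260.H119.Acyc
import Vale.Agent.P260.H119.Lift

/-!
# P260 climb, module M13: the cohomology of the kernel of a character
-/

namespace Vale.Agent.P260.H119

open Vale.Agent.P260.H493

section

variable {k Γ : Type} [Field k] [Group Γ] {ψ : Γ →* Multiplicative ℤ} {m : ℕ} {Δ : Subgroup Γ}
  {N : Type} [AddCommGroup N] [Module (MonoidAlgebra k Δ) N]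

theorem up0 (P : PDG k Γ m) (hΔ : ∀ g ∈ Δ, ψ g = 1) (h2 : P.Push ψ⁻¹)
    (z : (Fin (P.r 0) → MonoidAlgebra k Γ) →ₗ[MonoidAlgebra k Δ] N)
    (hz : z ∘ₗ resS Δ (P.d 0) = 0) (hu : EUp ψ z) : z = 0 :=
  (acyc k Γ ψ Δ m P hΔ h2 N).1 z hz hu

theorem up1 (P : PDG k Γ m) (hΔ : ∀ g ∈ Δ, ψ g = 1) (h2 : P.Push ψ⁻¹) (i : ℕ) (hi : i < m)
    (z : (Fin (P.r (i + 1)) → MonoidAlgebra k Γ) →ₗ[MonoidAlgebra k Δ] N)
    (hz : z ∘ₗ resS Δ (P.d (i + 1)) = 0) (hu : EUp ψ z) :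
    ∃ y : (Fin (P.r i) → MonoidAlgebra k Γ) →ₗ[MonoidAlgebra k Δ] N,
      EUp ψ y ∧ z = y ∘ₗ resS Δ (P.d i) :=
  (acyc k Γ ψ Δ m P hΔ h2 N).2.1 i hi z hz hu

theorem up2 (P : PDG k Γ m) (hΔ : ∀ g ∈ Δ, ψ g = 1) (h2 : P.Push ψ⁻¹)
    (z : (Fin (P.r (m + 1)) → MonoidAlgebra k Γ) →ₗ[MonoidAlgebra k Δ] N)
    (hz : z ∘ₗ resS Δ P.π = z) (hu : EUp ψ z) :
    ∃ y : (Fin (P.r m) → MonoidAlgebra k Γ) →ₗ[MonoidAlgebra k Δ] N,
      EUp ψ y ∧ z = y ∘ₗ resS Δ (P.d m) :=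
  (acyc k Γ ψ Δ m P hΔ h2 N).2.2 z hz hu

theorem inv_deg0 (hΔ : ∀ g ∈ Δ, ψ g = 1) : ∀ g ∈ Δ, ψ⁻¹ g = 1 := fun g hg => by
  rw [MonoidHom.inv_apply, hΔ g hg, inv_one]

theorem dn0 (P : PDG k Γ m) (hΔ : ∀ g ∈ Δ, ψ g = 1) (h1 : P.Push ψ)
    (z : (Fin (P.r 0) → MonoidAlgebra k Γ) →ₗ[MonoidAlgebra k Δ] N)
    (hz : z ∘ₗ resS Δ (P.d 0) = 0) (hu : EDn ψ z) : z = 0 :=
  up0 (ψ := ψ⁻¹) P (inv_deg0 hΔ) (by rwa [inv_inv]) z hz (edn_iff.2 hu)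

theorem dn1 (P : PDG k Γ m) (hΔ : ∀ g ∈ Δ, ψ g = 1) (h1 : P.Push ψ) (i : ℕ) (hi : i < m)
    (z : (Fin (P.r (i + 1)) → MonoidAlgebra k Γ) →ₗ[MonoidAlgebra k Δ] N)
    (hz : z ∘ₗ resS Δ (P.d (i + 1)) = 0) (hu : EDn ψ z) :
    ∃ y : (Fin (P.r i) → MonoidAlgebra k Γ) →ₗ[MonoidAlgebra k Δ] N,
      EDn ψ y ∧ z = y ∘ₗ resS Δ (P.d i) := by
  obtain ⟨y, hy, h⟩ := up1 (ψ := ψ⁻¹) P (inv_deg0 hΔ) (by rwa [inv_inv]) i hi z hz (edn_iff.2 hu)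
  exact ⟨y, edn_iff.1 hy, h⟩

theorem dn2 (P : PDG k Γ m) (hΔ : ∀ g ∈ Δ, ψ g = 1) (h1 : P.Push ψ)
    (z : (Fin (P.r (m + 1)) → MonoidAlgebra k Γ) →ₗ[MonoidAlgebra k Δ] N)
    (hz : z ∘ₗ resS Δ P.π = z) (hu : EDn ψ z) :
    ∃ y : (Fin (P.r m) → MonoidAlgebra k Γ) →ₗ[MonoidAlgebra k Δ] N,
      EDn ψ y ∧ z = y ∘ₗ resS Δ (P.d m) := by
  obtain ⟨y, hy, h⟩ := up2 (ψ := ψ⁻¹) P (inv_deg0 hΔ) (by rwa [inv_inv]) z hz (edn_iff.2 hu)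
  exact ⟨y, edn_iff.1 hy, h⟩

end

theorem ha : StmtHA := by
  intro k Γ _ _ ψ m P hψ h1 h2
  have hΔ : ∀ g ∈ ψ.ker, ψ g = 1 := fun g hg => hg
  have hdd : ∀ i, i < m + 1 → ∀ x, P.d i (P.d (i + 1) x) = 0 :=
    fun i hi x => (P.ex i hi _).2 ⟨x, rfl⟩
  refine ⟨?_, ?_, ?_, ?_⟩
  · -- (V)
    intro N _ _ z hz
    obtain ⟨zp, zm, hsum, hp, hm⟩ := exists_cut hΔ z
    obtain ⟨y, -, hy⟩ := up2 P hΔ h2 (zp ∘ₗ resS ψ.ker P.π)
      (LinearMap.ext fun v => by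
        show zp (P.π (P.π v)) = zp (P.π v)
        rw [P.pi_pi]) (EUp.comp ⟨0, hp⟩ _)
    obtain ⟨w, -, hw⟩ := dn2 P hΔ h1 (zm ∘ₗ resS ψ.ker P.π)
      (LinearMap.ext fun v => by
        show zm (P.π (P.π v)) = zm (P.π v)
        rw [P.pi_pi]) (EDn.comp ⟨1, hm⟩ _)
    refine ⟨y + w, ?_⟩
    rw [LinearMap.add_comp, ← hy, ← hw, ← LinearMap.add_comp, ← hsum, hz]
  · -- degree 0
    intro z hz
    obtain ⟨zp, zm, hsum, hp, hm⟩ := exists_cut hΔ z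
    have h3 : zp ∘ₗ resS ψ.ker (P.d 0) = -(zm ∘ₗ resS ψ.ker (P.d 0)) := by
      rw [eq_neg_iff_add_eq_zero, ← LinearMap.add_comp, ← hsum, hz]
    obtain ⟨φ, hφ⟩ := exists_lift hψ (zp ∘ₗ resS ψ.ker (P.d 0)) (EUp.comp ⟨0, hp⟩ _)
      (h3 ▸ (EDn.comp ⟨1, hm⟩ _).neg)
    have h4 : φ ∘ₗ P.d 1 = 0 := by
      refine prF_inj (Δ := ψ.ker) ?_
      rw [prF_comp, hφ]
      refine LinearMap.ext fun v => ?_
      show zp (P.d 0 (P.d 1 v)) = prA ψ.ker ((0 : _ →ₗ[MonoidAlgebra k Γ] _) v)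
      rw [hdd 0 (Nat.succ_pos _), map_zero, LinearMap.zero_apply, map_zero]
    obtain ⟨χ, rfl⟩ := P.co 0 (Nat.succ_pos _) φ h4
    rw [prF_comp] at hφ
    have h5 : zp - prF ψ.ker χ = 0 := by
      refine up0 P hΔ h2 _ ?_ (EUp.sub ⟨0, hp⟩ (prF_eup χ hΔ))
      rw [LinearMap.sub_comp, hφ, sub_self]
    have h6 : zm + prF ψ.ker χ = 0 := by
      refine dn0 P hΔ h1 _ ?_ (EDn.add ⟨1, hm⟩ (prF_edn χ hΔ))
      rw [LinearMap.add_comp, hφ, h3, add_neg_cancel]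
    rw [hsum, sub_eq_zero.1 h5, eq_neg_of_add_eq_zero_left h6, add_neg_cancel]
  · -- degree i + 1
    intro i hi z hz
    obtain ⟨zp, zm, hsum, hp, hm⟩ := exists_cut hΔ z
    have h3 : zp ∘ₗ resS ψ.ker (P.d (i + 1)) = -(zm ∘ₗ resS ψ.ker (P.d (i + 1))) := by
      rw [eq_neg_iff_add_eq_zero, ← LinearMap.add_comp, ← hsum, hz]
    obtain ⟨φ, hφ⟩ := exists_lift hψ (zp ∘ₗ resS ψ.ker (P.d (i + 1))) (EUp.comp ⟨0, hp⟩ _)
      (h3 ▸ (EDn.comp ⟨1, hm⟩ _).neg)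
    have h4 : φ ∘ₗ P.d (i + 1 + 1) = 0 := by
      refine prF_inj (Δ := ψ.ker) ?_
      rw [prF_comp, hφ]
      refine LinearMap.ext fun v => ?_
      show zp (P.d (i + 1) (P.d (i + 1 + 1) v)) = prA ψ.ker ((0 : _ →ₗ[MonoidAlgebra k Γ] _) v)
      rw [hdd (i + 1) (by omega), map_zero, LinearMap.zero_apply, map_zero]
    obtain ⟨χ, rfl⟩ := P.co (i + 1) (by omega) φ h4
    rw [prF_comp] at hφ
    obtain ⟨y, -, hy⟩ := up1 P hΔ h2 i (by omega) (zp - prF ψ.ker χ) (by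
      rw [LinearMap.sub_comp, hφ, sub_self]) (EUp.sub ⟨0, hp⟩ (prF_eup χ hΔ))
    obtain ⟨w, -, hw⟩ := dn1 P hΔ h1 i (by omega) (zm + prF ψ.ker χ) (by
      rw [LinearMap.add_comp, hφ, h3, add_neg_cancel]) (EDn.add ⟨1, hm⟩ (prF_edn χ hΔ))
    refine ⟨y + w, ?_⟩
    rw [LinearMap.add_comp, ← hy, ← hw, hsum]
    abel
  · -- top degree
    obtain ⟨φ₀, hφ₀, hne, hall⟩ := P.co_top
    have hc : prF ψ.ker φ₀ ∘ₗ resS ψ.ker P.π = prF ψ.ker φ₀ := by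
      rw [← prF_comp, hφ₀]
    obtain ⟨y, hyu, hy⟩ := up2 P hΔ h2 (prF ψ.ker φ₀) hc (prF_eup φ₀ hΔ)
    obtain ⟨w, hwd, hw⟩ := dn2 P hΔ h1 (prF ψ.ker φ₀) hc (prF_edn φ₀ hΔ)
    refine ⟨y - w, ?_, ?_, ?_⟩
    · rw [LinearMap.sub_comp, ← hy, ← hw, sub_self]
    · rintro ⟨x, hx⟩
      obtain ⟨xp, xm, hsum, hp, hm⟩ := exists_cut hΔ x
      have h3 : y - xp ∘ₗ resS ψ.ker (P.d m) = w + xm ∘ₗ resS ψ.ker (P.d m) := by
        have h4 : y - w = xp ∘ₗ resS ψ.ker (P.d m) + xm ∘ₗ resS ψ.ker (P.d m) := by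
          rw [hx, hsum, LinearMap.add_comp]
        rw [sub_eq_iff_eq_add] at h4 ⊢
        rw [h4]
        abel
      obtain ⟨χ, hχ⟩ := exists_lift hψ (y - xp ∘ₗ resS ψ.ker (P.d m))
        (hyu.sub (EUp.comp ⟨0, hp⟩ _)) (h3 ▸ hwd.add (EDn.comp ⟨1, hm⟩ _))
      refine hne ⟨χ, prF_inj (Δ := ψ.ker) ?_⟩
      rw [prF_comp, hχ, LinearMap.sub_comp, ← hy]
      refine LinearMap.ext fun v => ?_
      show prF ψ.ker φ₀ v = prF ψ.ker φ₀ v - xp (P.d m (P.d (m + 1) v))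
      rw [hdd m (Nat.lt_succ_self m), map_zero, sub_zero]
    · intro z hz
      obtain ⟨zp, zm, hsum, hp, hm⟩ := exists_cut hΔ z
      have h3 : zp ∘ₗ resS ψ.ker (P.d (m + 1)) = -(zm ∘ₗ resS ψ.ker (P.d (m + 1))) := by
        rw [eq_neg_iff_add_eq_zero, ← LinearMap.add_comp, ← hsum, hz]
      obtain ⟨φ, hφ⟩ := exists_lift hψ (zp ∘ₗ resS ψ.ker (P.d (m + 1))) (EUp.comp ⟨0, hp⟩ _)
        (h3 ▸ (EDn.comp ⟨1, hm⟩ _).neg)
      have h4 : φ ∘ₗ P.π = φ := by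
        refine prF_inj (Δ := ψ.ker) ?_
        rw [prF_comp, hφ]
        refine LinearMap.ext fun v => ?_
        show zp (P.d (m + 1) (P.π v)) = zp (P.d (m + 1) v)
        rw [P.d_pi]
      obtain ⟨c, χ, hχ⟩ := hall φ h4
      have h5 : ∀ v, zp (P.d (m + 1) v) =
          c • prF ψ.ker φ₀ v + prF ψ.ker χ (P.d (m + 1) v) := by
        intro v
        have h6 : zp (P.d (m + 1) v) = prF ψ.ker φ v := (LinearMap.congr_fun hφ v).symm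
        rw [h6, prF_apply, hχ, map_add, prF_apply, prF_apply]
        congr 1
        exact MonoidAlgebra.ext (Finsupp.ext fun g => rfl)
      have h6 : ∀ v, prF ψ.ker φ₀ v = y (P.d (m + 1) v) := fun v => LinearMap.congr_fun hy v
      have h7 : ∀ v, prF ψ.ker φ₀ v = w (P.d (m + 1) v) := fun v => LinearMap.congr_fun hw v
      obtain ⟨a, -, ha⟩ := up1 P hΔ h2 m (Nat.lt_succ_self m) (zp - c • y - prF ψ.ker χ)
        (LinearMap.ext fun v => by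
          show zp (P.d (m + 1) v) - c • y (P.d (m + 1) v) - prF ψ.ker χ (P.d (m + 1) v) = 0
          rw [h5, ← h6]
          abel)
        (EUp.sub (EUp.sub ⟨0, hp⟩ (by
          obtain ⟨e, he⟩ := hyu
          exact ⟨e, fun v hv => by rw [LinearMap.smul_apply, he v hv, smul_zero]⟩))
          (prF_eup χ hΔ))
      obtain ⟨b, -, hb⟩ := dn1 P hΔ h1 m (Nat.lt_succ_self m) (zm + c • w + prF ψ.ker χ)
        (LinearMap.ext fun v => by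
          show zm (P.d (m + 1) v) + c • w (P.d (m + 1) v) + prF ψ.ker χ (P.d (m + 1) v) = 0
          have h8 : zm (P.d (m + 1) v) = -zp (P.d (m + 1) v) := by
            rw [eq_neg_iff_add_eq_zero, add_comm]
            have := LinearMap.congr_fun hz v
            rw [hsum] at this
            exact this
          rw [h8, h5, ← h7]
          abel)
        (EDn.add (EDn.add ⟨1, hm⟩ (by
          obtain ⟨e, he⟩ := hwd
          exact ⟨e, fun v hv => by rw [LinearMap.smul_apply, he v hv, smul_zero]⟩))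
          (prF_edn χ hΔ))
      refine ⟨c, a + b, fun v => ?_⟩
      have h9 : (a + b) (P.d m v) = (zp - c • y - prF ψ.ker χ) v + (zm + c • w + prF ψ.ker χ) v := by
        rw [ha, hb]
        rfl
      rw [h9, hsum]
      simp only [LinearMap.add_apply, LinearMap.sub_apply, LinearMap.smul_apply, smul_sub]
      abel

/-- M13 in the form of the specification. -/
theorem ha' : StmtAcyc → StmtHA := fun _ => ha

end Vale.Agent.P260.H119
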