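import Mathlib
import Vale.Agent.P260.Defs
import Vale.Agent.P260.H145.PDZDef
import Vale.Agent.P260.H493.Glue
import Vale.Agent.P260.H802.VSpec
import Vale.Agent.P260.H81.PDZ
import Vale.Agent.P260.H324.V4b
import Vale.Agent.P260.H848.Ext
import Vale.Agent.P260.H856.V1b
import Vale.Agent.P260.H119.V7

/-!
# P260 climb: outer glue
-/

namespace Vale.Agent.P260.H119

open Vale.Agent.P260.H145 (PD4Z)
open Vale.Agent.P260.H493 Vale.Agent.P260.H802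

/-- V8: duality groups restrict to subgroups of finite index. -/
def StmtFI : Prop := ∀ (k Γ : Type) [Field k] [Group Γ] (H : Subgroup Γ), H.FiniteIndex →
  ∀ m : ℕ, PDG k Γ m → Nonempty (PDG k H m)

/-- W1: a character with finitely generated kernel is `Up` in both directions. -/
def StmtUpFG : Prop := ∀ (Γ : Type) [Group Γ] (S : Finset Γ) (ψ : Γ →* Multiplicative ℤ),
  GenSet S → Function.Surjective ψ → Group.FG ψ.ker →
  Up S (fun g => (deg ψ g : ℝ)) ∧ Up S (fun g => (deg ψ⁻¹ g : ℝ))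

/-- no elements of finite order -/
def TF (Γ : Type) [Group Γ] : Prop := ∀ g : Γ, g ≠ 1 → ¬ IsOfFinOrder g

theorem TF.sub {Γ : Type} [Group Γ] (h : TF Γ) (H : Subgroup Γ) : TF H := by
  intro g hg h1
  exact h (g : Γ) (fun h2 => hg (Subtype.ext h2)) (H.subtype.isOfFinOrder h1)

theorem fg_of_pdg {Γ : Type} [Group Γ] {m : ℕ} (P : PDG ℚ Γ (m + 1)) : Group.FG Γ := by
  obtain ⟨S, N, hS, -⟩ := H838.stmtFP2 Γ m P
  exact ⟨⟨S, hS.gen⟩⟩

/-- Dimension three. -/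
theorem vsolv3 (RK : StmtRK) (thC : StmtC) (h2 : StmtPD2) {Γ : Type} [Group Γ]
    (P : PDG ℚ Γ 2) (hF : Folner Γ) (htf : TF Γ) (χ : Γ →* Multiplicative ℤ) (hχ : χ ≠ 1) :
    VSolv Γ := by
  obtain ⟨ψ, c, -, hψ, -⟩ := exists_surj χ hχ
  obtain ⟨Q⟩ := fiber3 RK thC P hF ψ hψ
  exact H848.stmtExt Γ (Multiplicative ℤ) ψ inferInstance (fg_of_pdg Q)
    (h2 ψ.ker (F.Folner.subgroup hF _) (htf.sub _) Q)

/-- Dimension three, virtually. -/
theorem vsolv3v (RK : StmtRK) (thC : StmtC) (h2 : StmtPD2) (hFI : StmtFI) {Γ : Type} [Group Γ]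
    (P : PDG ℚ Γ 2) (hF : Folner Γ) (htf : TF Γ) (K : Subgroup Γ) (hK : K.FiniteIndex)
    (χ : K →* Multiplicative ℤ) (hχ : χ ≠ 1) : VSolv Γ := by
  obtain ⟨Q⟩ := hFI ℚ Γ K hK 2 P
  exact H848.vsolv_of_fin K hK (vsolv3 RK thC h2 Q (F.Folner.subgroup hF _) (htf.sub _) χ hχ)

/-- Dimension four, two independent characters. -/
theorem vsolv4 (RK : StmtRK) (thC : StmtC) (h2 : StmtPD2) {Γ : Type} [Group Γ]
    (P : PDG ℚ Γ 3) (hF : Folner Γ) (htf : TF Γ) (χ₁ χ₂ : Γ →* Multiplicative ℤ)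
    (hχ : ∀ a b : ℤ, (∀ g, a * deg χ₁ g + b * deg χ₂ g = 0) → a = 0 ∧ b = 0) : VSolv Γ := by
  obtain ⟨ψ, hψ, ⟨Q⟩, -⟩ := fiber4 RK thC P hF χ₁ χ₂ hχ
  have hex : ∃ χ : ψ.ker →* Multiplicative ℤ, χ ≠ 1 := by
    by_contra hno
    push Not at hno
    obtain ⟨t, ht⟩ := exists_deg ψ hψ 1
    have key : ∀ χ : Γ →* Multiplicative ℤ, ∀ g, deg χ g = deg χ t * deg ψ g := by
      intro χ g
      have h1 : ψ (g * t ^ (-deg ψ g)) = 1 := by
        have h2 : deg ψ (g * t ^ (-deg ψ g)) = 0 := by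
          rw [H493.deg_mul, H493.deg_zpow, ht]; ring
        exact Multiplicative.toAdd.injective h2
      have h3 : (χ.comp ψ.ker.subtype) ⟨_, h1⟩ = 1 := by
        rw [hno (χ.comp ψ.ker.subtype)]; rfl
      have h4 : deg χ (g * t ^ (-deg ψ g)) = 0 := by
        have h5 : χ (g * t ^ (-deg ψ g)) = 1 := h3
        rw [deg, h5]; rfl
      rw [H493.deg_mul, H493.deg_zpow] at h4
      linarith
    obtain ⟨h5, h6⟩ := hχ (deg χ₂ t) (-deg χ₁ t) (fun g => by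
      rw [key χ₁ g, key χ₂ g]; ring)
    obtain ⟨h7, -⟩ := hχ 1 0 (fun g => by
      rw [key χ₁ g, neg_eq_zero.1 h6]; ring)
    exact one_ne_zero h7
  obtain ⟨χ, hne⟩ := hex
  exact H848.stmtExt Γ (Multiplicative ℤ) ψ inferInstance (fg_of_pdg Q)
    (vsolv3 RK thC h2 Q (F.Folner.subgroup hF _) (htf.sub _) χ hne)

/-- Dimension four, a character with finitely generated kernel, which has a subgroup of finite
index with a nontrivial character. -/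
theorem vsolv4fib (RK : StmtRK) (thC : StmtC) (h2 : StmtPD2) (hFI : StmtFI) (hUp : StmtUpFG)
    {Γ : Type} [Group Γ] (P : PDG ℚ Γ 3) (hF : Folner Γ) (htf : TF Γ)
    (ψ : Γ →* Multiplicative ℤ) (hψ : Function.Surjective ψ) (hfg : Group.FG ψ.ker)
    (K : Subgroup ψ.ker) (hK : K.FiniteIndex) (χ : K →* Multiplicative ℤ) (hχ : χ ≠ 1) :
    VSolv Γ := by
  obtain ⟨S, N, hS, -⟩ := H838.stmtFP2 Γ 2 P
  obtain ⟨h3, h4⟩ := hUp Γ S ψ hS hψ hfg
  obtain ⟨h5, h6⟩ := push4 RK P hF ψ hψ S h3 h4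
  obtain ⟨Q⟩ := stmtFiber ℚ Γ ψ 2 P hψ h5 h6
  exact H848.stmtExt Γ (Multiplicative ℤ) ψ inferInstance hfg
    (vsolv3v RK thC h2 hFI Q (F.Folner.subgroup hF _) (htf.sub _) K hK χ hχ)

section final

variable {G : Type} [Group G]

theorem tf_of_pd4z (P : PD4Z G) : TF G := H856.V1.stmtTF G P

/-- Result form (1). -/
theorem final1 (RK : StmtRK) (thC : StmtC) (h2 : StmtPD2) (hFI : StmtFI) (P : PD4Z G)
    (hG : Folner G) (H : Subgroup G) (hH : H.FiniteIndex) (χ₁ χ₂ : H →* Multiplicative ℤ)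
    (hχ : ∀ a b : ℤ, (∀ g, a * deg χ₁ g + b * deg χ₂ g = 0) → a = 0 ∧ b = 0) : VSolv G := by
  obtain ⟨Q⟩ := hFI ℚ G H hH 3 (H81.pdg P)
  exact H848.vsolv_of_fin H hH
    (vsolv4 RK thC h2 Q (F.Folner.subgroup hG _) ((tf_of_pd4z P).sub _) χ₁ χ₂ hχ)

/-- Result form (2). -/
theorem final2 (RK : StmtRK) (thC : StmtC) (h2 : StmtPD2) (hFI : StmtFI) (hUp : StmtUpFG)
    (P : PD4Z G) (hG : Folner G) (H : Subgroup G) (hH : H.FiniteIndex)
    (ψ : H →* Multiplicative ℤ) (hψ : Function.Surjective ψ) (hfg : Group.FG ψ.ker)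
    (K : Subgroup ψ.ker) (hK : K.FiniteIndex) (χ : K →* Multiplicative ℤ) (hχ : χ ≠ 1) :
    VSolv G := by
  obtain ⟨Q⟩ := hFI ℚ G H hH 3 (H81.pdg P)
  exact H848.vsolv_of_fin H hH
    (vsolv4fib RK thC h2 hFI hUp Q (F.Folner.subgroup hG _) ((tf_of_pd4z P).sub _) ψ hψ hfg K hK χ hχ)

end final

end Vale.Agent.P260.H119
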