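import Mathlib
import Vale.Agent.P260.Defs
import Vale.Agent.P260.H145.ResDef
import Vale.Agent.P260.H145.MainV0
import Vale.Agent.P260.H145.PDZ
import Vale.Agent.P260.H331.W4a
import Vale.Agent.P260.H331.W4b
import Vale.Agent.P260.H119.Outer

/-!
# P260 climb: the dichotomy for amenable duality groups with a finitely generated fibre
-/

namespace Vale.Agent.P260.H119

open Vale.Agent.P260.H145 (PD4Z finRes)
open Vale.Agent.P260.H493 Vale.Agent.P260.H802
open Vale.Agent.P260.H331 (vsolv_of_inj vsolv_of_surj finRes_le_ker vind_of_vsolv)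

/-- the finite residual of a subgroup of finite index -/
theorem finRes_sub {G : Type*} [Group G] (H : Subgroup G) (hH : H.FiniteIndex) {x : H}
    (hx : (x : G) ∈ finRes G) : x ∈ finRes H := by
  refine Subgroup.mem_sInf.2 fun T hT => ?_
  obtain ⟨hT1, hT2⟩ := hT
  have h1 : (T.map H.subtype).FiniteIndex := by
    refine ⟨?_⟩
    rw [Subgroup.index_map_subtype]
    exact mul_ne_zero hT2.index_ne_zero hH.index_ne_zero
  have h2 : (x : G) ∈ (T.map H.subtype).normalCore :=
    Subgroup.mem_sInf.1 hx _ ⟨inferInstance, inferInstance⟩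
  obtain ⟨y, hy, hyx⟩ := (T.map H.subtype).normalCore_le h2
  have h3 : y = x := Subtype.ext hyx
  rwa [h3] at hy

/-- every finite-index subgroup is everything -/
def NoFin (R : Type) [Group R] : Prop := ∀ T : Subgroup R, T.FiniteIndex → T = ⊤

theorem noFin_finRes {K : Type} [Group K] (h : (finRes K).FiniteIndex) : NoFin (finRes K) := by
  intro T hT
  have h1 : (T.map (finRes K).subtype).FiniteIndex := by
    refine ⟨?_⟩
    rw [Subgroup.index_map_subtype]
    exact mul_ne_zero hT.index_ne_zero h.index_ne_zero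
  rw [eq_top_iff]
  intro x _
  have h2 : (x : K) ∈ (T.map (finRes K).subtype).normalCore :=
    Subgroup.mem_sInf.1 x.2 _ ⟨inferInstance, inferInstance⟩
  obtain ⟨y, hy, hyx⟩ := (T.map (finRes K).subtype).normalCore_le h2
  have h3 : y = x := Subtype.ext hyx
  rwa [h3] at hy

theorem dich_res (RK : StmtRK) (thC : StmtC) (h2 : StmtPD2) (hFI : StmtFI) (hUp : StmtUpFG)
    {G : Type} [Group G] (P : PD4Z G) (hG : Folner G)
    (H : Subgroup G) (hH : H.FiniteIndex) (ψ : H →* Multiplicative ℤ)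
    (hψ : Function.Surjective ψ) (hfg : Group.FG ψ.ker) :
    VSolv G ∨ (finRes ψ.ker).FiniteIndex := by
  have h0 : VSolv (G ⧸ finRes G) := Vale.Agent.P260.H145.vsolv_quot G (fun p _ => ⟨P.modp p⟩) hG
  let φ : ψ.ker →* G ⧸ finRes G :=
    (QuotientGroup.mk' (finRes G)).comp (H.subtype.comp ψ.ker.subtype)
  have hφ : φ.ker ≤ finRes ψ.ker := by
    intro x hx
    have h1 : (((x : H) : G)) ∈ finRes G := (QuotientGroup.eq_one_iff _).1 hx
    obtain ⟨y, hy, hyx⟩ := finRes_le_ker ψ hψ hfg (finRes_sub H hH h1)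
    have h3 : y = x := Subtype.ext hyx
    rwa [h3] at hy
  have h1 : VSolv (ψ.ker ⧸ φ.ker) :=
    vsolv_of_inj (QuotientGroup.kerLift φ) (QuotientGroup.kerLift_injective φ) h0
  have h3 : VSolv (ψ.ker ⧸ finRes ψ.ker) := by
    refine vsolv_of_surj (QuotientGroup.map φ.ker (finRes ψ.ker) (MonoidHom.id _) hφ) ?_ h1
    intro y
    obtain ⟨x, rfl⟩ := QuotientGroup.mk_surjective y
    exact ⟨QuotientGroup.mk x, rfl⟩
  have h4 : Group.FG (ψ.ker ⧸ finRes ψ.ker) :=
    Group.fg_of_surjective (QuotientGroup.mk'_surjective (finRes ψ.ker))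
  by_cases hinf : Infinite (ψ.ker ⧸ finRes ψ.ker)
  · left
    obtain ⟨Q₀, hQ₀, χ, hχ⟩ := vind_of_vsolv _ h4 hinf h3
    let q : ψ.ker →* ψ.ker ⧸ finRes ψ.ker := QuotientGroup.mk' (finRes ψ.ker)
    have hq : Function.Surjective q := QuotientGroup.mk'_surjective (finRes ψ.ker)
    have hfi : (Q₀.comap q).FiniteIndex := ⟨by
      rw [Subgroup.index_comap_of_surjective _ hq]; exact hQ₀.index_ne_zero⟩
    let g : Q₀.comap q →* Q₀ := (q.comp (Q₀.comap q).subtype).codRestrict Q₀ fun x => x.2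
    have hg : Function.Surjective g := by
      rintro ⟨y, hy⟩
      obtain ⟨x, rfl⟩ := hq y
      exact ⟨⟨x, hy⟩, rfl⟩
    refine final2 RK thC h2 hFI hUp P hG H hH ψ hψ hfg (Q₀.comap q) hfi (χ.comp g) ?_
    intro h5
    obtain ⟨y, hy⟩ := hχ (Multiplicative.ofAdd 1)
    obtain ⟨x, rfl⟩ := hg y
    have h6 : χ (g x) = 1 := DFunLike.congr_fun h5 x
    rw [hy] at h6
    have h7 : (1 : ℤ) = 0 := Multiplicative.toAdd.injective h6
    exact absurd h7 (by decide)
  · right
    have hfin : Finite (ψ.ker ⧸ finRes ψ.ker) := not_infinite_iff_finite.1 hinf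
    exact Subgroup.finiteIndex_of_finite_quotient

theorem dich (RK : StmtRK) (thC : StmtC) (h2 : StmtPD2) (hFI : StmtFI) (hUp : StmtUpFG)
    {G : Type} [Group G] (P : PD4Z G) (hG : Folner G)
    (H : Subgroup G) (hH : H.FiniteIndex) (ψ : H →* Multiplicative ℤ)
    (hψ : Function.Surjective ψ) (hfg : Group.FG ψ.ker) :
    VSolv G ∨ ∃ R : Subgroup ψ.ker, R.Normal ∧ R.FiniteIndex ∧ NoFin R := by
  rcases dich_res RK thC h2 hFI hUp P hG H hH ψ hψ hfg with h | h
  · exact Or.inl h
  · exact Or.inr ⟨finRes ψ.ker, inferInstance, h, noFin_finRes h⟩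

end Vale.Agent.P260.H119
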