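import Mathlib
import Vale.Agent.P260.Defs
import Vale.Agent.P260.H145.PDZDef
import Vale.Agent.P260.H11.Low
import Vale.Agent.P260.H81.V5
import Vale.Agent.P260.H103.Bass
import Vale.Agent.P260.H307.ThmC
import Vale.Agent.P260.H307.W1
import Vale.Agent.P260.H324.V4b
import Vale.Agent.P260.H417.Asm
import Vale.Agent.P260.H708.M6
import Vale.Agent.P260.H724.FI
import Vale.Agent.P260.H802.TrD
import Vale.Agent.P260.H838.FG
import Vale.Agent.P260.H848.Ext
import Vale.Agent.P260.H932.RK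
import Vale.Agent.P260.H119.Dich

/-!
# P260 climb: assembly
-/

namespace Vale.Agent.P260.H119

open Vale.Agent.P260.H145 (PD4Z)
open Vale.Agent.P260.H493 Vale.Agent.P260.H802

theorem rk : StmtRK := H932.stmtRK

theorem thC : StmtC := H307.stmtC

theorem pd2' : StmtPD2 :=
  pd2 H103.stmtBass H802.stmtTr H324.stmtChar H838.stmtFG0 H81.stmtEnds H848.stmtExt
    H838.stmtFP2 H11.lowA H708.stmtPrimal H708.stmtDual (H417.asm rk) H493.stmtFiber

theorem fi : StmtFI := fun k Γ _ _ H hH m P => by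
  have := hH
  exact H724.stmtFI k Γ H m P

theorem upFG : StmtUpFG := fun Γ _ S ψ hS hψ hfg => by
  obtain ⟨h1, h2⟩ := H307.w1 hS ψ hψ hfg
  refine ⟨h1, ?_⟩
  have h3 : (fun g => (deg ψ⁻¹ g : ℝ)) = fun g => -(deg ψ g : ℝ) := by
    funext g
    have h4 : deg ψ⁻¹ g = -deg ψ g := rfl
    rw [h4]; push_cast; rfl
  rw [h3]; exact h2

/-- Two independent characters on a subgroup of finite index. -/
theorem amen_two {G : Type} [Group G] (P : PD4Z G) (hG : Folner G) (H : Subgroup G)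
    (hH : H.FiniteIndex) (χ₁ χ₂ : H →* Multiplicative ℤ)
    (hχ : ∀ a b : ℤ, (∀ g, a * deg χ₁ g + b * deg χ₂ g = 0) → a = 0 ∧ b = 0) : VSolv G :=
  final1 rk thC pd2' fi P hG H hH χ₁ χ₂ hχ

/-- The dichotomy. -/
theorem amen_dich {G : Type} [Group G] (P : PD4Z G) (hG : Folner G) (H : Subgroup G)
    (hH : H.FiniteIndex) (ψ : H →* Multiplicative ℤ) (hψ : Function.Surjective ψ)
    (hfg : Group.FG ψ.ker) :
    VSolv G ∨ ∃ R : Subgroup ψ.ker, R.Normal ∧ R.FiniteIndex ∧ NoFin R :=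
  dich rk thC pd2' fi upFG P hG H hH ψ hψ hfg

end Vale.Agent.P260.H119
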