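import Mathlib

/-!
# P260: subexponential growth
-/

namespace Vale.Agent.P260

open scoped Pointwise

open Classical in
/-- `G` has subexponential growth: for every finite subset `E` and every `c > 1` some `n ≥ 1`
satisfies `|E ^ n| < c ^ n`, where `E ^ n` is the set of products of `n` elements of `E`. -/
def SubexpGrowth (G : Type*) [Group G] : Prop :=
  ∀ (E : Finset G) (c : ℝ), 1 < c → ∃ n : ℕ, 0 < n ∧ ((E ^ n).card : ℝ) < c ^ n

end Vale.Agent.P260
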