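import Mathlib
import Vale.Agent.P260.Defs
import Vale.Agent.P260.H119.GrowthDef

/-!
# P260 climb: subexponential growth (Milnor's lemma)
-/

namespace Vale.Agent.P260.H119

open scoped Pointwise

open Classical in
/-- Subexponential growth implies amenability. -/
theorem folner_of_growth {G : Type*} [Group G] (h : SubexpGrowth G) : Folner G := by
  intro E ε hε
  set A : Finset G := insert 1 E with hA
  have h1 : (1 : G) ∈ A := Finset.mem_insert_self _ _
  by_cases hex : ∃ n : ℕ, ((A ^ (n + 1)).card : ℝ) ≤ (1 + ε) * (A ^ n).card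
  · obtain ⟨n, hn⟩ := hex
    have hsub : A ^ n ⊆ A ^ (n + 1) := Finset.pow_subset_pow_right h1 (Nat.le_succ n)
    refine ⟨A ^ n, ⟨1, Finset.one_mem_pow h1⟩, fun g hg => ?_⟩
    have h2 : ((A ^ n).image fun x => g * x) ⊆ A ^ (n + 1) := by
      intro y hy
      obtain ⟨x, hx, rfl⟩ := Finset.mem_image.1 hy
      rw [pow_succ']
      exact Finset.mul_mem_mul (Finset.mem_insert_of_mem hg) hx
    have h3 : (((A ^ n).image fun x => g * x) \ A ^ n).card ≤ (A ^ (n + 1) \ A ^ n).card :=
      Finset.card_le_card (Finset.sdiff_subset_sdiff h2 (Finset.Subset.refl _))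
    have h4 : (A ^ (n + 1) \ A ^ n).card + (A ^ n).card = (A ^ (n + 1)).card :=
      Finset.card_sdiff_add_card_eq_card hsub
    have h5 : (((A ^ n).image fun x => g * x) \ A ^ n).card + (A ^ n).card
        ≤ (A ^ (n + 1)).card := by omega
    have h6 : ((((A ^ n).image fun x => g * x) \ A ^ n).card : ℝ) + (A ^ n).card
        ≤ (A ^ (n + 1)).card := by exact_mod_cast h5
    linarith
  · push Not at hex
    exfalso
    obtain ⟨n, -, hn⟩ := h A (1 + ε) (by linarith)
    have h2 : ∀ m : ℕ, (1 + ε) ^ m ≤ ((A ^ m).card : ℝ) := by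
      intro m
      induction m with
      | zero => simp
      | succ m ih =>
        have h3 := hex m
        have h4 : (1 + ε) * (1 + ε) ^ m ≤ (1 + ε) * (A ^ m).card :=
          mul_le_mul_of_nonneg_left ih (by linarith)
        rw [pow_succ']
        linarith
    exact absurd (h2 n) (not_le.2 hn)

theorem card_pow_image {G H : Type*} [Group G] [Group H] [DecidableEq G] [dH : DecidableEq H]
    (f : H →* G) (hf : Function.Injective f) (E : Finset H) (n : ℕ) :
    (E ^ n).card = ((E.image f) ^ n).card := by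
  rw [← Finset.image_pow, Finset.card_image_of_injective _ hf]

open Classical in
/-- Subexponential growth passes to subgroups. -/
theorem growth_sub {G : Type*} [Group G] (h : SubexpGrowth G) (H : Subgroup G) :
    SubexpGrowth H := by
  intro E c hc
  obtain ⟨n, hn, h1⟩ := h (E.image H.subtype) c hc
  refine ⟨n, hn, lt_of_le_of_lt (Nat.cast_le.2 (le_of_eq ?_)) h1⟩
  exact card_pow_image (dH := fun a b => propDecidable (a = b)) H.subtype H.subtype_injective E n

section milnor

variable {G : Type*} [Group G]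

/-- the subgroup generated by the first `n` conjugates -/
def cl (s t : G) (n : ℕ) : Subgroup G := Subgroup.closure {x | ∃ j < n, x = t ^ j * s * (t ^ j)⁻¹}

theorem cl_mono (s t : G) {m n : ℕ} (h : m ≤ n) : cl s t m ≤ cl s t n :=
  Subgroup.closure_mono fun _ ⟨j, hj, hx⟩ => ⟨j, hj.trans_le h, hx⟩

theorem mem_cl (s t : G) {j n : ℕ} (h : j < n) : t ^ j * s * (t ^ j)⁻¹ ∈ cl s t n :=
  Subgroup.subset_closure ⟨j, h, rfl⟩

open Classical in
theorem milnor_step (h : SubexpGrowth G) (s t : G) :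
    ∃ n, t ^ n * s * (t ^ n)⁻¹ ∈ cl s t n := by
  by_contra hno
  push Not at hno
  set E : Finset G := {t, s * t} with hE
  have h1 : ∀ n : ℕ, ∀ g ∈ E ^ n, g * (t ^ n)⁻¹ ∈ cl s t n := by
    intro n
    induction n with
    | zero =>
      intro g hg
      rw [pow_zero, Finset.mem_one] at hg
      simp [hg]
    | succ n ih =>
      intro g hg
      rw [pow_succ, Finset.mem_mul] at hg
      obtain ⟨y, hy, z, hz, rfl⟩ := hg
      have h2 := cl_mono s t (Nat.le_succ n) (ih y hy)
      rw [hE, Finset.mem_insert, Finset.mem_singleton] at hz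
      rcases hz with rfl | rfl
      · have h3 : y * z * (z ^ (n + 1))⁻¹ = y * (z ^ n)⁻¹ := by rw [pow_succ']; group
        rw [h3]; exact h2
      · have h3 : y * (s * t) * (t ^ (n + 1))⁻¹ =
            y * (t ^ n)⁻¹ * (t ^ n * s * (t ^ n)⁻¹) := by
          rw [pow_succ']; group
        rw [h3]
        exact mul_mem h2 (mem_cl s t (Nat.lt_succ_self n))
  have h2 : ∀ n : ℕ, (E ^ n).card = 2 ^ n := by
    intro n
    induction n with
    | zero => simp
    | succ n ih =>
      have h3 : E ^ (n + 1) = ((E ^ n).image fun y => y * t) ∪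
          ((E ^ n).image fun y => y * (s * t)) := by
        rw [pow_succ]
        ext g
        simp only [Finset.mem_mul, Finset.mem_union, Finset.mem_image, hE, Finset.mem_insert,
          Finset.mem_singleton]
        constructor
        · rintro ⟨y, hy, z, rfl | rfl, rfl⟩
          · exact Or.inl ⟨y, hy, rfl⟩
          · exact Or.inr ⟨y, hy, rfl⟩
        · rintro (⟨y, hy, rfl⟩ | ⟨y, hy, rfl⟩)
          · exact ⟨y, hy, t, Or.inl rfl, rfl⟩
          · exact ⟨y, hy, s * t, Or.inr rfl, rfl⟩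
      have h4 : Disjoint ((E ^ n).image fun y => y * t) ((E ^ n).image fun y => y * (s * t)) := by
        rw [Finset.disjoint_left]
        intro g hg hg'
        obtain ⟨y, hy, rfl⟩ := Finset.mem_image.1 hg
        obtain ⟨z, hz, hzy⟩ := Finset.mem_image.1 hg'
        have h5 : t ^ n * s * (t ^ n)⁻¹ = (z * (t ^ n)⁻¹)⁻¹ * (y * (t ^ n)⁻¹) := by
          have h6 : y = z * s := by
            have h7 : z * s * t = y * t := by rw [← mul_assoc] at hzy; exact hzy
            exact (mul_right_cancel h7).symm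
          rw [h6]; group
        exact hno n (h5 ▸ mul_mem (inv_mem (h1 n z hz)) (h1 n y hy))
      rw [h3, Finset.card_union_of_disjoint h4,
        Finset.card_image_of_injective _ (mul_left_injective t),
        Finset.card_image_of_injective _ (mul_left_injective (s * t)), ih, pow_succ]
      ring
  obtain ⟨n, -, hn⟩ := h E 2 one_lt_two
  rw [h2 n] at hn
  push_cast at hn
  exact lt_irrefl _ hn

theorem milnor_all (h : SubexpGrowth G) (s t : G) :
    ∃ n, ∀ i : ℕ, t ^ i * s * (t ^ i)⁻¹ ∈ cl s t n := by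
  obtain ⟨n, hn⟩ := milnor_step h s t
  have h1 : ∀ x ∈ cl s t n, t * x * t⁻¹ ∈ cl s t n := by
    intro x hx
    have h2 : cl s t n ≤ (cl s t n).comap (MulAut.conj t).toMonoidHom := by
      refine (Subgroup.closure_le _).2 ?_
      rintro _ ⟨j, hj, rfl⟩
      have h3 : t * (t ^ j * s * (t ^ j)⁻¹) * t⁻¹ = t ^ (j + 1) * s * (t ^ (j + 1))⁻¹ := by
        rw [pow_succ']; group
      show t * (t ^ j * s * (t ^ j)⁻¹) * t⁻¹ ∈ cl s t n
      rw [h3]
      rcases Nat.lt_or_ge (j + 1) n with h4 | h4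
      · exact mem_cl s t h4
      · have h5 : j + 1 = n := by omega
        rw [h5]; exact hn
    exact h2 hx
  refine ⟨n, fun i => ?_⟩
  rcases Nat.lt_or_ge i n with h4 | h4
  · exact mem_cl s t h4
  · induction i, h4 using Nat.le_induction with
    | base => exact hn
    | succ i _ ih =>
      have h3 : t ^ (i + 1) * s * (t ^ (i + 1))⁻¹ = t * (t ^ i * s * (t ^ i)⁻¹) * t⁻¹ := by
        rw [pow_succ']; group
      rw [h3]
      exact h1 _ ih

/-- all conjugates lie in a finitely generated subgroup -/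
theorem milnor_fin (h : SubexpGrowth G) (t : G) (K : Subgroup G) [K.Normal] (T : Finset G)
    (hT : ∀ s ∈ T, s ∈ K) : ∃ F : Finset G, (∀ x ∈ F, x ∈ K) ∧
      ∀ s ∈ T, ∀ i : ℤ, t ^ i * s * (t ^ i)⁻¹ ∈ Subgroup.closure (F : Set G) := by
  classical
  choose n hn using fun s => milnor_all h s t
  choose m hm using fun s => milnor_all h s t⁻¹
  let F : Finset G := (T.biUnion fun s => (Finset.range (n s)).image fun j =>
      t ^ j * s * (t ^ j)⁻¹) ∪ (T.biUnion fun s => (Finset.range (m s)).image fun j =>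
      t⁻¹ ^ j * s * (t⁻¹ ^ j)⁻¹)
  refine ⟨F, ?_, ?_⟩
  · intro x hx
    rcases Finset.mem_union.1 hx with hx | hx
    · obtain ⟨s, hs, hx⟩ := Finset.mem_biUnion.1 hx
      obtain ⟨j, -, rfl⟩ := Finset.mem_image.1 hx
      exact Subgroup.Normal.conj_mem inferInstance s (hT s hs) _
    · obtain ⟨s, hs, hx⟩ := Finset.mem_biUnion.1 hx
      obtain ⟨j, -, rfl⟩ := Finset.mem_image.1 hx
      exact Subgroup.Normal.conj_mem inferInstance s (hT s hs) _
  · intro s hs i
    rcases Int.le_total 0 i with hi | hi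
    · obtain ⟨j, rfl⟩ := Int.eq_ofNat_of_zero_le hi
      rw [zpow_natCast]
      refine Subgroup.closure_mono ?_ (hn s j)
      rintro _ ⟨k, hk, rfl⟩
      exact Finset.mem_coe.2 (Finset.mem_union_left _ (Finset.mem_biUnion.2
        ⟨s, hs, Finset.mem_image.2 ⟨k, Finset.mem_range.2 hk, rfl⟩⟩))
    · obtain ⟨j, hj⟩ := Int.eq_ofNat_of_zero_le (neg_nonneg.2 hi)
      have h1 : i = -(j : ℤ) := by omega
      have h2 : t ^ i = t⁻¹ ^ j := by rw [h1, zpow_neg, zpow_natCast, inv_pow]
      rw [h2]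
      refine Subgroup.closure_mono ?_ (hm s j)
      rintro _ ⟨k, hk, rfl⟩
      exact Finset.mem_coe.2 (Finset.mem_union_right _ (Finset.mem_biUnion.2
        ⟨s, hs, Finset.mem_image.2 ⟨k, Finset.mem_range.2 hk, rfl⟩⟩))

/-- **Milnor's lemma**: in a finitely generated group of subexponential growth the kernel of a
surjection onto `ℤ` is finitely generated. -/
theorem milnor (h : SubexpGrowth G) (hG : Group.FG G) (ψ : G →* Multiplicative ℤ)
    (hψ : Function.Surjective ψ) : Group.FG ψ.ker := by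
  classical
  obtain ⟨t, ht⟩ := hψ (Multiplicative.ofAdd 1)
  obtain ⟨S, hS⟩ := hG.out
  let d : G → ℤ := fun g => Multiplicative.toAdd (ψ g)
  have hd : ∀ g, ψ (g * (t ^ d g)⁻¹) = 1 := by
    intro g
    rw [map_mul, map_inv, map_zpow, ht, ← ofAdd_zsmul]
    apply Multiplicative.toAdd.injective
    simp [d]
  let T : Finset G := S.image fun g => g * (t ^ d g)⁻¹
  have hT : ∀ s ∈ T, s ∈ ψ.ker := by
    intro s hs
    obtain ⟨g, -, rfl⟩ := Finset.mem_image.1 hs
    exact hd g
  obtain ⟨F, hFK, hF⟩ := milnor_fin h t ψ.ker T hT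
  let C : Subgroup G := Subgroup.closure {x | ∃ s ∈ T, ∃ i : ℤ, x = t ^ i * s * (t ^ i)⁻¹}
  have hCF : C ≤ Subgroup.closure (F : Set G) := by
    refine (Subgroup.closure_le _).2 ?_
    rintro _ ⟨s, hs, i, rfl⟩
    exact hF s hs i
  have hCt : ∀ (k : ℤ), ∀ x ∈ C, t ^ k * x * (t ^ k)⁻¹ ∈ C := by
    intro k x hx
    have h2 : C ≤ C.comap (MulAut.conj (t ^ k)).toMonoidHom := by
      refine (Subgroup.closure_le _).2 ?_
      rintro _ ⟨s, hs, i, rfl⟩
      have h3 : t ^ k * (t ^ i * s * (t ^ i)⁻¹) * (t ^ k)⁻¹ =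
          t ^ (k + i) * s * (t ^ (k + i))⁻¹ := by
        rw [zpow_add]; group
      show t ^ k * (t ^ i * s * (t ^ i)⁻¹) * (t ^ k)⁻¹ ∈ C
      rw [h3]
      exact Subgroup.subset_closure ⟨s, hs, _, rfl⟩
    exact h2 hx
  -- every element is `c * t ^ k`
  have hall : ∀ g : G, ∃ c ∈ C, ∃ k : ℤ, g = c * t ^ k := by
    let D : Subgroup G :=
      { carrier := {g | ∃ c ∈ C, ∃ k : ℤ, g = c * t ^ k}
        one_mem' := ⟨1, one_mem _, 0, by simp⟩
        mul_mem' := by
          rintro _ _ ⟨c, hc, k, rfl⟩ ⟨c', hc', k', rfl⟩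
          refine ⟨c * (t ^ k * c' * (t ^ k)⁻¹), mul_mem hc (hCt k c' hc'), k + k', ?_⟩
          rw [zpow_add]; group
        inv_mem' := by
          rintro _ ⟨c, hc, k, rfl⟩
          refine ⟨t ^ (-k) * c⁻¹ * (t ^ (-k))⁻¹, hCt (-k) _ (inv_mem hc), -k, ?_⟩
          group }
    have hD : D = ⊤ := by
      rw [← top_le_iff, ← hS]
      refine (Subgroup.closure_le _).2 fun g hg => ?_
      refine ⟨g * (t ^ d g)⁻¹, Subgroup.subset_closure
        ⟨_, Finset.mem_image_of_mem _ hg, 0, by simp⟩, d g, by group⟩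
    intro g
    have : g ∈ D := hD ▸ Subgroup.mem_top g
    exact this
  have hC : ∀ x ∈ C, ψ x = 1 := by
    intro x hx
    have h2 : C ≤ ψ.ker := by
      refine (Subgroup.closure_le _).2 ?_
      rintro _ ⟨s, hs, i, rfl⟩
      exact Subgroup.Normal.conj_mem inferInstance s (hT s hs) _
    exact h2 hx
  have hker : ψ.ker ≤ Subgroup.closure (F : Set G) := by
    intro g hg
    obtain ⟨c, hc, k, rfl⟩ := hall g
    have h2 : ψ (c * t ^ k) = 1 := hg
    rw [map_mul, hC c hc, one_mul, map_zpow, ht, ← ofAdd_zsmul] at h2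
    have h3 : k • (1 : ℤ) = 0 := Multiplicative.ofAdd.injective h2
    have h4 : k = 0 := by simpa using h3
    rw [h4, zpow_zero, mul_one]
    exact hCF hc
  have heq : Subgroup.closure (F : Set G) = ψ.ker :=
    le_antisymm ((Subgroup.closure_le _).2 fun x hx => hFK x hx) hker
  exact (Group.fg_iff_subgroup_fg _).2 ⟨F, heq⟩

end milnor

end Vale.Agent.P260.H119
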