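import Mathlib
import Vale.Agent.P260.Defs
import Vale.Agent.P260.H119.Growth
import Vale.Agent.P260.H119.Final

/-!
# P260 climb: duality groups of subexponential growth
-/

namespace Vale.Agent.P260.H119

open Vale.Agent.P260.H145 (PD4Z finRes)
open Vale.Agent.P260.H331 (finiteIndex_sup inf_sup_le)

theorem finRes_char (K : Type*) [Group K] : (finRes K).Characteristic := by
  refine Subgroup.characteristic_iff_le_comap.2 fun φ x hx => ?_
  refine Subgroup.mem_sInf.2 fun N hN => ?_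
  obtain ⟨hN1, hN2⟩ := hN
  have h1 : (N.comap φ.toMonoidHom).FiniteIndex := ⟨by
    rw [Subgroup.index_comap_of_surjective _ φ.surjective]; exact hN2.index_ne_zero⟩
  exact Subgroup.mem_sInf.1 hx (N.comap φ.toMonoidHom) ⟨inferInstance, h1⟩

theorem finRes_map_normal {H : Type*} [Group H] (K : Subgroup H) [K.Normal] :
    ((finRes K).map K.subtype).Normal := by
  have := finRes_char K
  exact ConjAct.normal_of_characteristic_of_normal

/-- Passing to a subgroup of finite index, the fibre has no proper subgroup of finite index. -/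
theorem clean {G : Type} [Group G] (H : Subgroup G) (hH : H.FiniteIndex)
    (ψ : H →* Multiplicative ℤ) (hψ : Function.Surjective ψ) (hfg : Group.FG ψ.ker)
    (hfi : (finRes ψ.ker).FiniteIndex) :
    ∃ H' : Subgroup G, H'.FiniteIndex ∧ ∃ ψ' : H' →* Multiplicative ℤ,
      Function.Surjective ψ' ∧ Group.FG ψ'.ker ∧ ∀ T : Subgroup ψ'.ker, T.FiniteIndex → T = ⊤ := by
  obtain ⟨t, ht⟩ := hψ (Multiplicative.ofAdd 1)
  set K0 : Subgroup H := (finRes ψ.ker).map ψ.ker.subtype with hK0
  set L : Subgroup H := K0 ⊔ Subgroup.zpowers t with hL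
  have hLfi : L.FiniteIndex := finiteIndex_sup ht _ hfi
  have hn : K0.Normal := finRes_map_normal ψ.ker
  have hle : L.map H.subtype ≤ H := by
    rintro _ ⟨x, -, rfl⟩
    exact x.2
  refine ⟨L.map H.subtype, ⟨?_⟩, ψ.comp (Subgroup.inclusion hle), ?_, ?_⟩
  · rw [Subgroup.index_map_subtype]
    exact mul_ne_zero hLfi.index_ne_zero hH.index_ne_zero
  · intro y
    refine ⟨⟨(t ^ (Multiplicative.toAdd y) : H), ⟨t ^ (Multiplicative.toAdd y),
      (le_sup_right : _ ≤ L) (Subgroup.zpow_mem _ (Subgroup.mem_zpowers t) _), rfl⟩⟩, ?_⟩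
    show ψ (t ^ (Multiplicative.toAdd y)) = y
    rw [map_zpow, ht, ← ofAdd_zsmul, smul_eq_mul, mul_one, ofAdd_toAdd]
  · set ψ' : L.map H.subtype →* Multiplicative ℤ := ψ.comp (Subgroup.inclusion hle) with hψ'
    let j0 : finRes ψ.ker →* G := H.subtype.comp (ψ.ker.subtype.comp (finRes ψ.ker).subtype)
    let j1 : finRes ψ.ker →* L.map H.subtype := j0.codRestrict _ fun x =>
      ⟨((x : ψ.ker) : H), (le_sup_left : _ ≤ L) ⟨x, x.2, rfl⟩, rfl⟩
    let j : finRes ψ.ker →* ψ'.ker := j1.codRestrict _ fun x => (x : ψ.ker).2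
    have hj : Function.Surjective j := by
      rintro ⟨⟨_, ⟨y, hy, rfl⟩⟩, hx⟩
      have h1 : ψ y = 1 := hx
      obtain ⟨z, hz, hzy⟩ := inf_sup_le ht (finRes ψ.ker) hn h1 hy
      refine ⟨⟨z, hz⟩, ?_⟩
      apply Subtype.ext
      apply Subtype.ext
      show ((z : H) : G) = (y : G)
      exact congrArg _ hzy
    have hfg' : Group.FG (finRes ψ.ker) := inferInstance
    refine ⟨Group.fg_of_surjective hj, fun T hT => ?_⟩
    have h1 : (T.comap j).FiniteIndex := ⟨by
      rw [Subgroup.index_comap_of_surjective _ hj]; exact hT.index_ne_zero⟩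
    have h2 := noFin_finRes hfi (T.comap j) h1
    rw [eq_top_iff]
    intro x _
    obtain ⟨y, rfl⟩ := hj x
    have h3 : y ∈ T.comap j := h2 ▸ Subgroup.mem_top y
    exact h3

/-- The dichotomy, clean form. -/
theorem amen_dich' {G : Type} [Group G] (P : PD4Z G) (hG : Folner G) (H : Subgroup G)
    (hH : H.FiniteIndex) (ψ : H →* Multiplicative ℤ) (hψ : Function.Surjective ψ)
    (hfg : Group.FG ψ.ker) :
    VSolv G ∨ ∃ H' : Subgroup G, H'.FiniteIndex ∧ ∃ ψ' : H' →* Multiplicative ℤ,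
      Function.Surjective ψ' ∧ Group.FG ψ'.ker ∧ ∀ T : Subgroup ψ'.ker, T.FiniteIndex → T = ⊤ := by
  rcases dich_res rk thC pd2' fi upFG P hG H hH ψ hψ hfg with h | h
  · exact Or.inl h
  · exact Or.inr (clean H hH ψ hψ hfg h)

/-- Subexponential growth. -/
theorem growth_dich {G : Type} [Group G] (P : PD4Z G) (hs : SubexpGrowth G)
    (H : Subgroup G) (hH : H.FiniteIndex) (ψ : H →* Multiplicative ℤ)
    (hψ : Function.Surjective ψ) :
    VSolv G ∨ ∃ H' : Subgroup G, H'.FiniteIndex ∧ ∃ ψ' : H' →* Multiplicative ℤ,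
      Function.Surjective ψ' ∧ Group.FG ψ'.ker ∧ ∀ T : Subgroup ψ'.ker, T.FiniteIndex → T = ⊤ := by
  have hFG : Group.FG G := fg_of_pdg (H81.pdg P)
  have hFG' : Group.FG H := inferInstance
  exact amen_dich' P (folner_of_growth hs) H hH ψ hψ (milnor (growth_sub hs H) hFG' ψ hψ)

end Vale.Agent.P260.H119
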